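import Vale.Agent.P156.H904.LogAvg
import Vale.Agent.P156.H490.Spectral
import Vale.Agent.P156.H490.Prob
import Vale.Agent.P156.H814.Typ

/-!
# Log determinants of random regular graphs (P156, block D3), final form
-/

open Complex Filter Topology MeasureTheory Matrix

noncomputable section

namespace Vale.Agent.P156.H904

open Vale.Agent.P156

lemma cutMat_empty {V : Type*} [Fintype V] [DecidableEq V] (A : Matrix V V ℝ) (z : ℂ) :
    cutMat A ∅ z = A.map Complex.ofReal - z • (1 : Matrix V V ℂ) := by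
  ext x y
  simp only [cutMat, Finset.notMem_empty, or_self, if_false, Matrix.sub_apply, Matrix.map_apply,
    Matrix.smul_apply, Matrix.one_apply, smul_eq_mul]
  split_ifs <;> simp

lemma norm_det_cutMat {V : Type*} [Fintype V] [DecidableEq V] {A : Matrix V V ℝ}
    (hA : A.IsHermitian) (z : ℂ) :
    ‖(cutMat A ∅ z).det‖ = ∏ i, ‖(hA.eigenvalues i : ℂ) - z‖ := by
  have h1 : (cutMat A ∅ z) = -(Matrix.scalar V z - A.map Complex.ofReal) := by
    rw [cutMat_empty, neg_sub]
    congr 1
    ext x y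
    simp [Matrix.smul_apply, Matrix.one_apply, Matrix.scalar_apply, Matrix.diagonal_apply]
  have h2 : (Matrix.scalar V z - A.map Complex.ofReal).det =
      (A.map Complex.ofReal).charpoly.eval z := (Matrix.eval_charpoly _ _).symm
  have h3 : (A.map Complex.ofReal).charpoly = A.charpoly.map Complex.ofRealHom :=
    Matrix.charpoly_map A Complex.ofRealHom
  have h4 : (A.map Complex.ofReal).charpoly.eval z = ∏ i, (z - (hA.eigenvalues i : ℂ)) := by
    rw [h3, hA.charpoly_eq, Polynomial.map_prod, Polynomial.eval_prod]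
    refine Finset.prod_congr rfl (fun i _ => ?_)
    simp
  rw [h1, Matrix.det_neg, norm_mul, h2, h4, norm_prod]
  have h5 : ‖(-1 : ℂ) ^ Fintype.card V‖ = 1 := by simp
  rw [h5, one_mul]
  refine Finset.prod_congr rfl (fun i _ => ?_)
  rw [norm_sub_rev]

lemma LL_eig {n : ℕ} (G : SimpleGraph (Fin n)) (E : ℝ) {η : ℝ} (hη : 0 < η) :
    Real.log ‖(cutMat (adj G) ∅ ((E : ℂ) + η * I)).det‖ / n = LL (eig G) E η := by
  rw [norm_det_cutMat (adj_isHermitian G), Real.log_prod]
  · unfold LL
    rw [Fintype.card_fin]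
    rfl
  · intro i _
    exact norm_ne_zero_iff.2 (term_ne hη)

lemma TT_eig {n : ℕ} (G : SimpleGraph (Fin n)) (E : ℝ) {η : ℝ} (hη : 0 < η) :
    TT (eig G) E η = (∑ v, (resD (adj G) ∅ ((E : ℂ) + η * I) v v).im) / n := by
  unfold TT
  rw [Fintype.card_fin, ← Complex.im_sum, ← Complex.im_sum]
  congr 2
  have hz : ∀ i, ((adj_isHermitian G).eigenvalues i : ℂ) - ((E : ℂ) + η * I) ≠ 0 :=
    fun i => term_ne hη
  have h1 : ∀ v, resD (adj G) ∅ ((E : ℂ) + η * I) v v =
      ∑ i, ((H801.ev (adj_isHermitian G) i v * H801.ev (adj_isHermitian G) i v : ℝ) : ℂ) /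
        (((adj_isHermitian G).eigenvalues i : ℂ) - ((E : ℂ) + η * I)) := by
    intro v
    rw [H490.resD_empty, H801.rs_apply (adj_isHermitian G) hz]
  simp only [h1]
  rw [Finset.sum_comm]
  refine Finset.sum_congr rfl (fun i _ => ?_)
  rw [← Finset.sum_div, ← Complex.ofReal_sum, H801.ev_orth]
  simp [eig]

lemma abs_im_resD_le {n : ℕ} (G : SimpleGraph (Fin n)) (E : ℝ) {η : ℝ} (hη : 0 < η) (v : Fin n) :
    |(resD (adj G) ∅ ((E : ℂ) + η * I) v v).im| ≤ 1 / η := by
  have hz : ∀ i, ((adj_isHermitian G).eigenvalues i : ℂ) - ((E : ℂ) + η * I) ≠ 0 :=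
    fun i => term_ne hη
  rw [H490.resD_empty, H801.rs_apply (adj_isHermitian G) hz]
  refine (Complex.abs_im_le_norm _).trans ?_
  refine (norm_sum_le _ _).trans ?_
  have h1 : ∀ i ∈ (Finset.univ : Finset (Fin n)),
      ‖((H801.ev (adj_isHermitian G) i v * H801.ev (adj_isHermitian G) i v : ℝ) : ℂ) /
        (((adj_isHermitian G).eigenvalues i : ℂ) - ((E : ℂ) + η * I))‖ ≤
      (H801.ev (adj_isHermitian G) i v * H801.ev (adj_isHermitian G) i v) * (1 / η) := by
    intro i _
    rw [norm_div, Complex.norm_real, Real.norm_eq_abs, abs_of_nonneg (mul_self_nonneg _)]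
    have h2 : η ≤ ‖((adj_isHermitian G).eigenvalues i : ℂ) - ((E : ℂ) + η * I)‖ := by
      have := Complex.abs_im_le_norm
        (((adj_isHermitian G).eigenvalues i : ℂ) - ((E : ℂ) + η * I))
      simp only [Complex.sub_im, Complex.ofReal_im, line_im, zero_sub, abs_neg,
        abs_of_pos hη] at this
      exact this
    rw [div_eq_mul_one_div]
    have h3 : 0 ≤ H801.ev (adj_isHermitian G) i v * H801.ev (adj_isHermitian G) i v :=
      mul_self_nonneg _
    gcongr
  refine (Finset.sum_le_sum h1).trans ?_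
  rw [← Finset.sum_mul, H801.ev_complete]
  simp

/-- the eigenvalues of a `d`-regular graph are bounded by `d` -/
lemma abs_eig_le {n d : ℕ} {G : SimpleGraph (Fin n)} (hG : G ∈ regularGraphs n d) (i : Fin n) :
    |eig G i| ≤ d := by
  classical
  obtain ⟨a, -, ha⟩ := Finset.exists_max_image (Finset.univ : Finset (Fin n))
    (fun a => |H801.ev (adj_isHermitian G) i a|) ⟨i, Finset.mem_univ i⟩
  have hpos : 0 < |H801.ev (adj_isHermitian G) i a| := by
    by_contra hcon
    have h0 : ∀ b, H801.ev (adj_isHermitian G) i b = 0 := by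
      intro b
      have h1 := ha b (Finset.mem_univ b)
      have h2 : |H801.ev (adj_isHermitian G) i b| ≤ 0 := h1.trans (not_lt.1 hcon)
      exact abs_nonpos_iff.1 h2
    have h3 := H801.ev_orth (adj_isHermitian G) i i
    simp [h0] at h3
  have h1 := H801.ev_eigen (adj_isHermitian G) i a
  have h2 : |∑ c, adj G a c * H801.ev (adj_isHermitian G) i c| ≤
      d * |H801.ev (adj_isHermitian G) i a| := by
    refine (Finset.abs_sum_le_sum_abs _ _).trans ?_
    have h3 : ∀ c ∈ (Finset.univ : Finset (Fin n)),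
        |adj G a c * H801.ev (adj_isHermitian G) i c| ≤
        (if G.Adj a c then 1 else 0) * |H801.ev (adj_isHermitian G) i a| := by
      intro c _
      unfold adj
      rw [SimpleGraph.adjMatrix_apply, abs_mul]
      split_ifs with h
      · simp only [abs_one, one_mul]
        exact ha c (Finset.mem_univ c)
      · simp
    refine (Finset.sum_le_sum h3).trans ?_
    rw [← Finset.sum_mul]
    have h4 : (∑ c, if G.Adj a c then (1 : ℝ) else 0) = d := by
      have h5 := H490.mem_regularGraphs.1 hG a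
      rw [Finset.sum_boole]
      have : (Finset.univ.filter (fun c => G.Adj a c)).card = d := by
        rw [← h5, ← SimpleGraph.card_neighborFinset_eq_degree]
        congr 1
        ext c
        simp
      exact_mod_cast this
    rw [h4]
  rw [h1, abs_mul] at h2
  exact le_of_mul_le_mul_right h2 hpos

lemma avg_pi_one {n d : ℕ} (G : SimpleGraph (Fin n)) (h : Fin n × (Fin d → Fin n) → ℝ) :
    avg (Fintype.piFinset (fun _ : Fin 1 => H490.starsOf d G)) (fun s => h (s 0)) =
      avg (H490.starsOf d G) h := by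
  unfold avg
  have h1 : ∑ s ∈ Fintype.piFinset (fun _ : Fin 1 => H490.starsOf d G), h (s 0) =
      ∑ p ∈ H490.starsOf d G, h p := by
    refine Finset.sum_nbij' (fun s => s 0) (fun p => fun _ => p) ?_ ?_ ?_ ?_ ?_
    · intro s hs
      exact (Fintype.mem_piFinset.1 hs) 0
    · intro p hp
      exact Fintype.mem_piFinset.2 (fun _ => hp)
    · intro s _
      funext j
      rw [Subsingleton.elim j 0]
    · intro p _
      rfl
    · intro s _
      rfl
  have h2 : (Fintype.piFinset (fun _ : Fin 1 => H490.starsOf d G)).card =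
      (H490.starsOf d G).card := by
    rw [Fintype.card_piFinset]
    simp
  rw [h1, h2]

/-- the averaged Stieltjes transform is controlled by the centre entry of one star -/
lemma avg_TT_le {n d : ℕ} (hn : 0 < n) (E : ℝ) {η : ℝ} (hη : 0 < η) (c : ℝ) :
    avg (regularGraphs n d) (fun G => |TT (eig G) E η - c|) ≤
      avg (WW n d 1) (fun ω => |(starMat ω ((E : ℂ) + η * I) (0, none) (0, none)).im - c|) := by
  rw [H490.avg_WW]
  refine avg_mono _ (fun G hG => ?_)
  refine le_of_le_of_eq ?_ (avg_pi_one (d := d) G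
    (fun p => |(resD (adj G) ∅ ((E : ℂ) + η * I) p.1 p.1).im - c|)).symm
  have hne : (H490.starsOf d G).Nonempty := by
    rw [← Finset.card_pos, H490.card_starsOf hG]
    positivity
  have h1 : TT (eig G) E η - c =
      avg (H490.starsOf d G) (fun p => (resD (adj G) ∅ ((E : ℂ) + η * I) p.1 p.1).im - c) := by
    rw [H490.avg_sub, H490.avg_const hne, TT_eig G E hη]
    congr 1
    exact (H490.avg_star_vtx hG (fun v => (resD (adj G) ∅ ((E : ℂ) + η * I) v v).im) none).symm
  rw [h1]
  exact H490.abs_avg_le _ _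

lemma avg_le_of_prob {α : Type*} (s : Finset α) {f : α → ℝ} {M ε : ℝ} (hM : 0 ≤ M)
    (hε : 0 ≤ ε) (P : α → Prop) (h1 : ∀ ω ∈ s, f ω ≤ M) (h2 : ∀ ω ∈ s, ¬ P ω → f ω ≤ ε)
    (h3 : prob s P ≤ ε) : avg s f ≤ ε + M * ε := by
  classical
  have h4 : avg s f ≤ avg s (fun ω => ε + M * (if P ω then 1 else 0)) := by
    refine avg_mono _ (fun ω hω => ?_)
    by_cases hP : P ω
    · simp only [hP, if_true, mul_one]
      linarith [h1 ω hω]
    · simp only [hP, if_false, mul_zero, add_zero]
      exact h2 ω hω hP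
  refine h4.trans ?_
  rw [avg_add, H490.avg_mul_left]
  have h5 : avg s (fun ω => if P ω then (1 : ℝ) else 0) = prob s P := by
    unfold prob
    congr 1
  rw [h5]
  have h6 := avg_const_le s hε
  nlinarith

lemma tendsto_TT {d : ℕ} (hd : 3 ≤ d) (hFix : SpecFix d) {E : ℝ}
    (hE : |E| < 2 * Real.sqrt ((d : ℝ) - 1)) {η : ℝ} (hη : 0 < η) {m : ℂ}
    (hm : IsTreeStieltjes d ((E : ℂ) + η * I) m) :
    Tendsto (fun n => avg (regularGraphs n d) (fun G => |TT (eig G) E η - (m / (1 - m ^ 2)).im|))
      (admissible d) (𝓝 0) := by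
  have hd' : (0 : ℝ) < (d : ℝ) - 1 := by
    have : (3 : ℝ) ≤ d := by exact_mod_cast hd
    linarith
  have hquad : (((d : ℝ) - 1 : ℝ) : ℂ) * m ^ 2 + ((E : ℂ) + η * I) * m + 1 = 0 := by
    push_cast
    exact hm.1
  have hzim : 0 < ((E : ℂ) + η * I).im := by rw [line_im]; exact hη
  obtain ⟨n1, n2, n3⟩ := nondeg hd' hzim hm.2 hquad
  have hmd : -1 / (((E : ℂ) + η * I) + d * m) = m / (1 - m ^ 2) := by
    have h1 := md_mul hquad n2
    have h2 : ((E : ℂ) + η * I) + d * m ≠ 0 := by
      intro h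
      have h3 : ((E : ℂ) + η * I) + ((((d : ℝ) - 1 : ℝ) : ℂ) + 1) * m = 0 := by
        rw [← h]; push_cast; ring
      rw [h3, zero_mul] at h1
      norm_num at h1
    rw [div_eq_iff h2, ← h1]
    push_cast
    ring
  have hbm : |(m / (1 - m ^ 2)).im| ≤ 1 / η := by
    refine (Complex.abs_im_le_norm _).trans ?_
    have := (isRoot_mST hd' E).norm_md_le hd' hη
    have heq : m = mST ((d : ℝ) - 1) ((E : ℂ) + η * I) :=
      root_unique hd' hquad (mST_quad hd' _) hzim hm.2 (isRoot_mST hd' E η hη).1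
    rw [heq]
    exact this
  rw [Metric.tendsto_nhds]
  intro ε hε
  set ε' := ε / (2 * (1 + 2 / η)) with hε'
  have hε'pos : 0 < ε' := by positivity
  have h1 := hFix E η hE hη m hm 1 ε' hε'pos
  have h2 : ∀ᶠ n in admissible d, 0 < n := by
    unfold admissible
    refine Filter.Eventually.filter_mono inf_le_left ?_
    exact eventually_gt_atTop 0
  filter_upwards [h1, h2] with n hn hn0
  rw [Real.dist_eq, sub_zero, abs_of_nonneg (avg_nonneg _ (fun ω _ => abs_nonneg _))]
  refine lt_of_le_of_lt (avg_TT_le (d := d) hn0 E hη _) ?_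
  have h3 := avg_le_of_prob (WW n d 1)
    (f := fun ω => |(starMat ω ((E : ℂ) + η * I) (0, none) (0, none)).im - (m / (1 - m ^ 2)).im|)
    (M := 2 / η) (ε := ε') (by positivity) hε'pos.le _ ?_ ?_ hn
  · refine lt_of_le_of_lt h3 ?_
    have h4 : ε' + 2 / η * ε' = ε / 2 := by
      rw [hε']
      field_simp
    rw [h4]
    linarith
  · intro ω _
    refine (abs_sub _ _).trans ?_
    have h5 : |(starMat ω ((E : ℂ) + η * I) (0, none) (0, none)).im| ≤ 1 / η :=
      abs_im_resD_le ω.1 E hη _
    have h6 : 2 / η = 1 / η + 1 / η := by ring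
    linarith
  · intro ω _ hP
    push Not at hP
    have h5 := hP (0, none) (0, none)
    simp only [starDist, if_true, pow_zero, mul_one] at h5
    rw [hmd] at h5
    rw [← Complex.sub_im]
    exact (Complex.abs_im_le_norm _).trans h5

/-- **D3.**  The normalised log determinants of uniform random `d`-regular graphs converge in
`L¹` to the log potential of the Kesten–McKay law, at every fixed positive height. -/
theorem logdet_main {d : ℕ} (hd : 3 ≤ d) (hFix : SpecFix d) {E : ℝ}
    (hE : |E| < 2 * Real.sqrt ((d : ℝ) - 1)) {δ : ℝ} (hδ : 0 < δ) {m : ℂ}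
    (hm : IsTreeStieltjes d ((E : ℂ) + δ * I) m) :
    Tendsto (fun n => avg (regularGraphs n d)
      (fun G => |Real.log ‖(cutMat (adj G) ∅ ((E : ℂ) + δ * I)).det‖ / n - H814.Um d m|))
      (admissible d) (𝓝 0) := by
  have hd' : (0 : ℝ) < (d : ℝ) - 1 := by
    have : (3 : ℝ) ≤ d := by exact_mod_cast hd
    linarith
  set M : ℝ → ℂ := fun η => mST ((d : ℝ) - 1) ((E : ℂ) + η * I) with hM
  have hroot : IsRoot ((d : ℝ) - 1) E M := isRoot_mST hd' E
  have hts : ∀ η : ℝ, 0 < η → IsTreeStieltjes d ((E : ℂ) + η * I) (M η) := by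
    intro η hη
    refine ⟨?_, (hroot η hη).1⟩
    have := (hroot η hη).2
    push_cast at this
    exact this
  have hquad : (((d : ℝ) - 1 : ℝ) : ℂ) * m ^ 2 + ((E : ℂ) + δ * I) * m + 1 = 0 := by
    push_cast
    exact hm.1
  have hzim : 0 < ((E : ℂ) + δ * I).im := by rw [line_im]; exact hδ
  have hmM : m = M δ := root_unique hd' hquad (mST_quad hd' _) hzim hm.2 (hroot δ hδ).1
  have hU : H814.Um d m = UU ((d : ℝ) - 1) (M δ) := by
    rw [hmM]
    unfold H814.Um UU
    ring
  have h2 : ∀ᶠ n in admissible d, Nonempty (Fin n) := by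
    unfold admissible
    refine Filter.Eventually.filter_mono inf_le_left ?_
    filter_upwards [eventually_gt_atTop 0] with n hn
    exact ⟨⟨0, hn⟩⟩
  have hcg : (admissible d).IsCountablyGenerated := by
    unfold admissible
    infer_instance
  have h3 := avg_logdet (B := d) hd' hroot (l := admissible d)
    (Ω := fun n => SimpleGraph (Fin n)) (fun n => regularGraphs n d)
    (ι := fun n => Fin n) (fun n G => eig G) h2
    (fun n G hG i => abs_eig_le hG i)
    (fun η hη => tendsto_TT hd hFix hE hη (hts η hη)) hδ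
  refine h3.congr (fun n => ?_)
  refine congrArg _ ?_
  funext G
  rw [LL_eig G E hδ, hU]

end Vale.Agent.P156.H904
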