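import Vale.Agent.P156.H904.Boundary

/-!
# The star covariance (P156, block D3): `Im K_z` and its limit `SigStar`
-/

open Complex Filter Topology MeasureTheory Matrix

noncomputable section

namespace Vale.Agent.P156.H904

open Vale.Agent.P156

/-- The covariance of the Gaussian wave on a star. -/
def SigStar (d : ℕ) (lam : ℝ) : Matrix (Option (Fin d)) (Option (Fin d)) ℝ := fun x y =>
  if x = y then 1 else if x = none ∨ y = none then lam / d else (lam ^ 2 - d) / (d * (d - 1))

lemma zl_eq (lam : ℝ) (l : ℕ) :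
    H814.zl lam l = (lam : ℂ) + ((1 / ((l : ℝ) + 1) : ℝ) : ℂ) * I := rfl

lemma eta_pos (l : ℕ) : 0 < 1 / ((l : ℝ) + 1) := by positivity

lemma zl_im (lam : ℝ) (l : ℕ) : (H814.zl lam l).im = 1 / ((l : ℝ) + 1) := by
  rw [zl_eq, line_im]

/-- (L1) -/
theorem exists_stieltjes {d : ℕ} (hd : 2 ≤ d) {z : ℂ} (hz : 0 < z.im) :
    ∃ m, IsTreeStieltjes d z m := by
  have hq : (0 : ℝ) < (d : ℝ) - 1 := by
    have : (2 : ℝ) ≤ d := by exact_mod_cast hd
    linarith
  refine ⟨mST ((d : ℝ) - 1) z, ?_, mST_im_pos hq hz⟩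
  have := mST_quad hq z
  push_cast at this
  exact this

theorem L1 {d : ℕ} (hd : 2 ≤ d) (lam : ℝ) (l : ℕ) : ∃ m, IsTreeStieltjes d (H814.zl lam l) m :=
  exists_stieltjes hd (by rw [zl_im]; exact eta_pos l)

lemma tendsto_eta : Tendsto (fun l : ℕ => 1 / ((l : ℝ) + 1)) atTop (𝓝 0) :=
  tendsto_one_div_add_atTop_nhds_zero_nat

/-- (L2) -/
theorem L2 {q : ℕ} (hq : 2 ≤ q) {lam : ℝ} (hlam : |lam| < 2 * Real.sqrt (((q + 1 : ℕ) : ℝ) - 1))
    {m : ℕ → ℂ} (hm : ∀ l, IsTreeStieltjes (q + 1) (H814.zl lam l) (m l)) :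
    Tendsto (fun l => H814.Um (q + 1) (m l)) atTop (𝓝 (H653.Uval q lam)) :=
  tendsto_Um (by omega) hlam eta_pos tendsto_eta hm

lemma tree_ne {d : ℕ} {z m : ℂ} (hm : IsTreeStieltjes d z m) (hz : 0 ≤ z.im) :
    z + d * m ≠ 0 := by
  rcases Nat.eq_zero_or_pos d with h | h
  · subst h
    intro h1
    have h2 := hm.1
    have h3 := hm.2
    simp only [Nat.cast_zero, zero_mul, add_zero] at h1
    rw [h1] at h2
    have h4 : m ^ 2 = 1 := by
      push_cast at h2
      linear_combination -h2
    have h5 : (m - 1) * (m + 1) = 0 := by linear_combination h4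
    rcases mul_eq_zero.1 h5 with h6 | h6
    · have := congrArg Complex.im h6
      simp at this
      linarith
    · have := congrArg Complex.im h6
      simp at this
      linarith
  · intro h1
    have := congrArg Complex.im h1
    rw [Complex.add_im, ← Complex.ofReal_natCast, Complex.im_ofReal_mul, Complex.zero_im] at this
    have h2 : (0 : ℝ) < d := by exact_mod_cast h
    have h3 := mul_pos h2 hm.2
    linarith

/-- `m_d = -1/(z+dm) = m/(1-m²)` -/
lemma md_eq {d : ℕ} {z m : ℂ} (hm : IsTreeStieltjes d z m) (hz : 0 ≤ z.im) :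
    -1 / (z + d * m) = m / (1 - m ^ 2) := by
  have h1 := tree_ne hm hz
  have h2 := one_sub_sq_ne hm.2
  rw [div_eq_div_iff h1 h2]
  linear_combination -hm.1

/-- real quadratic form of `K_z` on the star -/
lemma quad_Kz {d : ℕ} {z m : ℂ} (hm : IsTreeStieltjes d z m) (hz : 0 ≤ z.im)
    (u : Option (Fin d) → ℝ) :
    ∑ x, ∑ y, (u x : ℂ) * H814.Kz d z m x y * u y =
      (m / (1 - m ^ 2)) * ((u none : ℂ) - m * ∑ j : Fin d, (u (some j) : ℂ)) ^ 2 +
        m * ∑ j : Fin d, (u (some j) : ℂ) ^ 2 := by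
  have h2 := one_sub_sq_ne hm.2
  unfold H814.Kz
  rw [md_eq hm hz]
  simp only [Fintype.sum_option]
  have e0 : starDist (none : Option (Fin d)) none = 0 := by simp [starDist]
  have e1 : ∀ j : Fin d, starDist (none : Option (Fin d)) (some j) = 1 := by
    intro j; simp [starDist]
  have e2 : ∀ j : Fin d, starDist (some j : Option (Fin d)) none = 1 := by
    intro j; simp [starDist]
  have e3 : ∀ i j : Fin d, starDist (some i : Option (Fin d)) (some j) =
      if i = j then 0 else 2 := by
    intro i j; simp [starDist]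
  simp only [e0, e1, e2, e3]
  set b : Fin d → ℂ := fun j => (u (some j) : ℂ) with hb
  set s := ∑ j : Fin d, (u (some j) : ℂ) with hs
  have h3 : ∀ i : Fin d, ∑ j : Fin d, (u (some i) : ℂ) * (m / (1 - m ^ 2) *
      (-m) ^ (if i = j then 0 else 2)) * (u (some j) : ℂ) =
      (m / (1 - m ^ 2)) * (u (some i) : ℂ) * (m ^ 2 * s + (1 - m ^ 2) * (u (some i) : ℂ)) := by
    intro i
    have h4 : ∀ j : Fin d, (u (some i) : ℂ) * (m / (1 - m ^ 2) *
      (-m) ^ (if i = j then 0 else 2)) * (u (some j) : ℂ) =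
      (m / (1 - m ^ 2)) * (u (some i) : ℂ) * (m ^ 2 * (u (some j) : ℂ) +
        if i = j then (1 - m ^ 2) * (u (some j) : ℂ) else 0) := by
      intro j
      split_ifs with h
      · ring
      · ring
    simp only [h4]
    rw [← Finset.mul_sum, Finset.sum_add_distrib, ← Finset.mul_sum, Finset.sum_ite_eq]
    simp [hs]
  simp only [h3]
  have h5 : ∑ j : Fin d, (u none : ℂ) * (m / (1 - m ^ 2) * (-m) ^ 1) * (u (some j) : ℂ) =
      (u none : ℂ) * (m / (1 - m ^ 2) * (-m) ^ 1) * s := by
    rw [← Finset.mul_sum]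
  rw [h5]
  have h6 : ∑ x : Fin d, ((u (some x) : ℂ) * (m / (1 - m ^ 2) * (-m) ^ 1) * (u none : ℂ) +
      m / (1 - m ^ 2) * (u (some x) : ℂ) * (m ^ 2 * s + (1 - m ^ 2) * (u (some x) : ℂ))) =
      (m / (1 - m ^ 2) * (-m) ^ 1) * (u none : ℂ) * s +
      m / (1 - m ^ 2) * m ^ 2 * s * s + m * ∑ j : Fin d, (u (some j) : ℂ) ^ 2 := by
    rw [Finset.sum_add_distrib]
    have h7 : ∑ x : Fin d, (u (some x) : ℂ) * (m / (1 - m ^ 2) * (-m) ^ 1) * (u none : ℂ) =
        (m / (1 - m ^ 2) * (-m) ^ 1) * (u none : ℂ) * s := by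
      rw [hs, Finset.mul_sum]
      refine Finset.sum_congr rfl (fun x _ => ?_)
      ring
    have h8 : ∑ x : Fin d, m / (1 - m ^ 2) * (u (some x) : ℂ) *
        (m ^ 2 * s + (1 - m ^ 2) * (u (some x) : ℂ)) =
        m / (1 - m ^ 2) * m ^ 2 * s * s + m * ∑ j : Fin d, (u (some j) : ℂ) ^ 2 := by
      have h9 : ∀ x : Fin d, m / (1 - m ^ 2) * (u (some x) : ℂ) *
        (m ^ 2 * s + (1 - m ^ 2) * (u (some x) : ℂ)) =
          m / (1 - m ^ 2) * m ^ 2 * s * (u (some x) : ℂ) + m * (u (some x) : ℂ) ^ 2 := by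
        intro x
        field_simp
      simp only [h9]
      rw [Finset.sum_add_distrib, ← Finset.mul_sum, ← Finset.mul_sum]
    rw [h7, h8]
    ring
  rw [h6]
  ring

/-- imaginary part of the real quadratic form as a manifestly nonnegative expression -/
lemma im_quad {d : ℕ} {z m : ℂ} (hm : IsTreeStieltjes d z m) (hz : 0 ≤ z.im)
    (u : Option (Fin d) → ℝ) :
    (∑ x, ∑ y, (u x : ℂ) * H814.Kz d z m x y * u y).im =
      z.im * Complex.normSq ((m / (1 - m ^ 2)) *
        ((u none : ℂ) - m * ∑ j : Fin d, (u (some j) : ℂ))) +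
      m.im * ∑ j : Fin d, Complex.normSq ((u (some j) : ℂ) - (m / (1 - m ^ 2)) *
        ((u none : ℂ) - m * ∑ j : Fin d, (u (some j) : ℂ))) := by
  have h1 := tree_ne hm hz
  rw [quad_Kz hm hz u]
  set s : ℂ := ∑ j : Fin d, (u (some j) : ℂ) with hs
  obtain ⟨sr, hsr⟩ : ∃ sr : ℝ, s = sr ∧ sr = ∑ j : Fin d, u (some j) :=
    ⟨∑ j : Fin d, u (some j), by rw [hs]; push_cast; rfl, rfl⟩
  set a : ℝ := u none with ha
  set W : ℂ := (m / (1 - m ^ 2)) * ((a : ℂ) - m * s) with hW
  have hmd : m / (1 - m ^ 2) = -1 / (z + d * m) := (md_eq hm hz).symm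
  -- W (z + d m) = -(a - m s)
  have h2 : W * (z + d * m) = -((a : ℂ) - m * s) := by
    rw [hW, hmd]
    field_simp
  have h3 : (m / (1 - m ^ 2)) * ((a : ℂ) - m * s) ^ 2 = -(W ^ 2 * (z + d * m)) := by
    have : (m / (1 - m ^ 2)) * ((a : ℂ) - m * s) ^ 2 = W * ((a : ℂ) - m * s) := by
      rw [hW]; ring
    rw [this]
    linear_combination W * h2
  have h4 : ∑ j : Fin d, Complex.normSq ((u (some j) : ℂ) - W) =
      (∑ j : Fin d, u (some j) ^ 2) - 2 * sr * W.re + d * Complex.normSq W := by
    have h5 : ∀ j : Fin d, Complex.normSq ((u (some j) : ℂ) - W) =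
        u (some j) ^ 2 - 2 * u (some j) * W.re + Complex.normSq W := by
      intro j
      rw [Complex.normSq_apply, Complex.normSq_apply]
      simp only [Complex.sub_re, Complex.sub_im, Complex.ofReal_re, Complex.ofReal_im]
      ring
    simp only [h5]
    rw [Finset.sum_add_distrib, Finset.sum_sub_distrib, Finset.sum_const, Finset.card_univ,
      Fintype.card_fin, nsmul_eq_mul, ← Finset.sum_mul, ← Finset.mul_sum, ← hsr.2]
  rw [h3, h4]
  have h5 : (m * ∑ j : Fin d, (u (some j) : ℂ) ^ 2).im = m.im * ∑ j : Fin d, u (some j) ^ 2 := by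
    have : (∑ j : Fin d, (u (some j) : ℂ) ^ 2) = ((∑ j : Fin d, u (some j) ^ 2 : ℝ) : ℂ) := by
      push_cast; rfl
    rw [this, Complex.im_mul_ofReal]
  rw [Complex.add_im, h5]
  -- the identity for W
  have h7 := congrArg Complex.im h2
  rw [hsr.1] at h7
  simp only [Complex.mul_re, Complex.mul_im, Complex.add_re, Complex.add_im,
    Complex.neg_im, Complex.sub_im, Complex.ofReal_re, Complex.ofReal_im,
    Complex.natCast_re, Complex.natCast_im, zero_mul, mul_zero, sub_zero, add_zero, zero_sub] at h7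
  rw [Complex.neg_im, pow_two]
  simp only [Complex.mul_re, Complex.mul_im, Complex.add_re, Complex.add_im,
    Complex.natCast_re, Complex.natCast_im, zero_mul, sub_zero, add_zero,
    Complex.normSq_apply]
  linear_combination (-2 * W.re) * h7

/-- (L4) -/
theorem im_md_pos {d : ℕ} {z m : ℂ} (hm : IsTreeStieltjes d z m) (hz : 0 < z.im) :
    0 < (H814.Kz d z m none none).im := by
  have h1 := im_quad hm hz.le (fun x => x.elim 1 (fun _ => 0))
  have h2 : (∑ x : Option (Fin d), ∑ y : Option (Fin d),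
      (((x.elim 1 (fun _ => 0) : ℝ)) : ℂ) * H814.Kz d z m x y *
      ((y.elim 1 (fun _ => 0) : ℝ) : ℂ)) = H814.Kz d z m none none := by
    simp [Fintype.sum_option]
  rw [h2] at h1
  rw [h1]
  have h3 := one_sub_sq_ne hm.2
  have hm0 : m ≠ 0 := by
    intro h
    have := hm.2
    rw [h] at this
    simp at this
  have h4 : 0 < Complex.normSq ((m / (1 - m ^ 2)) *
      ((((none : Option (Fin d)).elim 1 (fun _ => 0) : ℝ) : ℂ) - m * ∑ j : Fin d,
        (((some j : Option (Fin d)).elim 1 (fun _ => 0) : ℝ) : ℂ))) := by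
    rw [Complex.normSq_pos]
    simp
    exact ⟨hm0, h3⟩
  have h5 : 0 ≤ m.im * ∑ j : Fin d, Complex.normSq
      ((((some j : Option (Fin d)).elim 1 (fun _ => 0) : ℝ) : ℂ) - (m / (1 - m ^ 2)) *
      ((((none : Option (Fin d)).elim 1 (fun _ => 0) : ℝ) : ℂ) - m * ∑ j : Fin d,
        (((some j : Option (Fin d)).elim 1 (fun _ => 0) : ℝ) : ℂ))) :=
    mul_nonneg hm.2.le (Finset.sum_nonneg fun j _ => Complex.normSq_nonneg _)
  have h6 := mul_pos hz h4
  linarith

lemma starDist_comm {d : ℕ} (x y : Option (Fin d)) : starDist x y = starDist y x := by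
  unfold starDist
  by_cases h : x = y
  · subst h; rfl
  · have h' : ¬ y = x := fun h1 => h h1.symm
    simp only [h, h', if_false, or_comm]

lemma Kz_comm {d : ℕ} (z m : ℂ) (x y : Option (Fin d)) :
    H814.Kz d z m x y = H814.Kz d z m y x := by
  unfold H814.Kz
  rw [starDist_comm]

lemma im_sum_Kz {d : ℕ} (z m : ℂ) (u : Option (Fin d) → ℝ) :
    (∑ x, ∑ y, (u x : ℂ) * H814.Kz d z m x y * u y).im =
      ∑ x, ∑ y, u x * u y * (H814.Kz d z m x y).im := by
  rw [Complex.im_sum]
  refine Finset.sum_congr rfl (fun x _ => ?_)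
  rw [Complex.im_sum]
  refine Finset.sum_congr rfl (fun y _ => ?_)
  rw [Complex.im_mul_ofReal, Complex.im_ofReal_mul]
  ring

/-- (L4), second part -/
theorem posDef_Kz {d : ℕ} {z m : ℂ} (hm : IsTreeStieltjes d z m) (hz : 0 < z.im) :
    (Matrix.of fun x y => (H814.Kz d z m x y).im).PosDef := by
  refine Matrix.PosDef.of_dotProduct_mulVec_pos ?_ ?_
  · ext x y
    simp only [Matrix.conjTranspose_apply, Matrix.of_apply, star_trivial]
    rw [Kz_comm]
  · intro u hu
    have h0 : star u ⬝ᵥ ((Matrix.of fun x y => (H814.Kz d z m x y).im) *ᵥ u) =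
        (∑ x, ∑ y, (u x : ℂ) * H814.Kz d z m x y * u y).im := by
      rw [im_sum_Kz]
      simp only [dotProduct, Matrix.mulVec, Matrix.of_apply, star_trivial]
      refine Finset.sum_congr rfl (fun x _ => ?_)
      rw [Finset.mul_sum]
      refine Finset.sum_congr rfl (fun y _ => ?_)
      ring
    rw [h0, im_quad hm hz.le u]
    set W : ℂ := (m / (1 - m ^ 2)) * ((u none : ℂ) - m * ∑ j : Fin d, (u (some j) : ℂ)) with hW
    have h1 : 0 ≤ m.im * ∑ j : Fin d, Complex.normSq ((u (some j) : ℂ) - W) :=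
      mul_nonneg hm.2.le (Finset.sum_nonneg fun j _ => Complex.normSq_nonneg _)
    have h2 : 0 ≤ z.im * Complex.normSq W := mul_nonneg hz.le (Complex.normSq_nonneg _)
    by_contra hcon
    have h3 : z.im * Complex.normSq W = 0 := by linarith
    have h4 : m.im * ∑ j : Fin d, Complex.normSq ((u (some j) : ℂ) - W) = 0 := by linarith
    have hW0 : W = 0 := by
      rcases mul_eq_zero.1 h3 with h | h
      · exact absurd h hz.ne'
      · exact Complex.normSq_eq_zero.1 h
    have h5 : ∑ j : Fin d, Complex.normSq ((u (some j) : ℂ) - W) = 0 := by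
      rcases mul_eq_zero.1 h4 with h | h
      · exact absurd h hm.2.ne'
      · exact h
    have h6 : ∀ j : Fin d, u (some j) = 0 := by
      intro j
      have h7 := (Finset.sum_eq_zero_iff_of_nonneg
        (fun j _ => Complex.normSq_nonneg _)).1 h5 j (Finset.mem_univ j)
      rw [hW0, sub_zero] at h7
      have := Complex.normSq_eq_zero.1 h7
      exact_mod_cast this
    have h7 : u none = 0 := by
      have h8 : (m / (1 - m ^ 2)) * ((u none : ℂ) - m * ∑ j : Fin d, (u (some j) : ℂ)) = 0 := by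
        rw [← hW]; exact hW0
      have hm0 : m ≠ 0 := by
        intro h
        have := hm.2
        rw [h] at this
        simp at this
      have h9 : m / (1 - m ^ 2) ≠ 0 := div_ne_zero hm0 (one_sub_sq_ne hm.2)
      rcases mul_eq_zero.1 h8 with h | h
      · exact absurd h h9
      · simp only [h6, Complex.ofReal_zero, Finset.sum_const_zero, mul_zero, sub_zero] at h
        exact_mod_cast h
    apply hu
    funext x
    cases x with
    | none => exact h7
    | some j => exact h6 j

/-- (L6): the variance of the residual -/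
theorem L6 {d : ℕ} (lam : ℝ) (l : ℕ) {m : ℂ} (hm : IsTreeStieltjes d (H814.zl lam l) m) :
    ∑ x : Option (Fin d), ∑ y : Option (Fin d), (x.elim (-lam) (fun _ => 1)) *
      (y.elim (-lam) (fun _ => 1)) * (H814.Kz d (H814.zl lam l) m x y).im ≤ 1 / ((l : ℝ) + 1) := by
  set η : ℝ := 1 / ((l : ℝ) + 1) with hη
  have hηpos : 0 < η := eta_pos l
  have hzim : 0 < (H814.zl lam l).im := by rw [zl_im]; exact hηpos
  rw [← im_sum_Kz, quad_Kz hm hzim.le]
  have hmd := md_eq hm hzim.le
  have hne := tree_ne hm hzim.le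
  have hpos := im_md_pos hm hzim
  have hK : H814.Kz d (H814.zl lam l) m none none = m / (1 - m ^ 2) := by
    unfold H814.Kz
    rw [hmd]
    simp [starDist]
  rw [hK] at hpos
  set μ := m / (1 - m ^ 2) with hμ
  simp only [Option.elim_none, Option.elim_some, Complex.ofReal_one, Finset.sum_const,
    Finset.card_univ, Fintype.card_fin, nsmul_eq_mul, mul_one, one_pow]
  have hz : H814.zl lam l = (lam : ℂ) + (η : ℂ) * I := zl_eq lam l
  have h1 : μ * (H814.zl lam l + d * m) = -1 := by
    rw [← hmd]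
    field_simp
  have h2 : μ * ((((-lam : ℝ)) : ℂ) - m * d) ^ 2 + m * d =
      -(H814.zl lam l) + 2 * (η : ℂ) * I - (η : ℂ) ^ 2 * μ := by
    rw [hz] at h1 ⊢
    have hI : I ^ 2 = -1 := Complex.I_sq
    push_cast
    linear_combination ((lam : ℂ) + d * m - (η : ℂ) * I) * h1 + (μ * (η : ℂ) ^ 2) * hI
  rw [h2]
  have h3 : (-(H814.zl lam l) + 2 * (η : ℂ) * I - (η : ℂ) ^ 2 * μ).im = η - η ^ 2 * μ.im := by
    rw [Complex.sub_im, Complex.add_im, Complex.neg_im, zl_im, ← Complex.ofReal_pow,
      Complex.im_ofReal_mul, show (2 : ℂ) * (η : ℂ) * I = ((2 * η : ℝ) : ℂ) * I by push_cast; ring,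
      Complex.im_ofReal_mul, Complex.I_im, ← hη]
    ring
  rw [h3]
  have : 0 ≤ η ^ 2 * μ.im := by positivity
  linarith

/-- imaginary parts of `m_d (-m)^k` at a real energy -/
lemma im_K_real {d : ℕ} (hd : 3 ≤ d) {lam : ℝ} (hlam : |lam| < 2 * Real.sqrt ((d : ℝ) - 1))
    (x y : Option (Fin d)) :
    0 < (-1 / ((lam : ℂ) + d * mE d lam)).im ∧
    ((-1 / ((lam : ℂ) + d * mE d lam)) * (-(mE d lam)) ^ starDist x y).im =
      SigStar d lam x y * (-1 / ((lam : ℂ) + d * mE d lam)).im := by
  have hd0 : (0 : ℝ) < d := by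
    have : (3 : ℝ) ≤ d := by exact_mod_cast hd
    linarith
  have hq0 := dm1_pos hd
  have hpos := mE_im_pos hd hlam
  have hquad := mE_quad hd hlam
  set M := mE d lam with hM
  have hwim : 0 < ((lam : ℂ) + d * M).im := by
    rw [Complex.add_im, Complex.ofReal_im, zero_add, ← Complex.ofReal_natCast,
      Complex.im_ofReal_mul]
    positivity
  have hne : (lam : ℂ) + d * M ≠ 0 := by
    intro h
    rw [h] at hwim
    simp at hwim
  set μ := -1 / ((lam : ℂ) + d * M) with hμ
  have h1 : μ * ((lam : ℂ) + d * M) = -1 := by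
    rw [hμ]
    field_simp
  have hμpos : 0 < μ.im := by
    rw [hμ, Complex.div_im]
    have h2 : 0 < Complex.normSq ((lam : ℂ) + d * M) := Complex.normSq_pos.2 hne
    simp only [Complex.neg_im, Complex.one_im, Complex.neg_re, Complex.one_re]
    have h3 : 0 < ((lam : ℂ) + d * M).im / Complex.normSq ((lam : ℂ) + d * M) := by positivity
    have h4 : -0 * ((lam : ℂ) + d * M).re / Complex.normSq ((lam : ℂ) + d * M) -
        -1 * ((lam : ℂ) + d * M).im / Complex.normSq ((lam : ℂ) + d * M) =
        ((lam : ℂ) + d * M).im / Complex.normSq ((lam : ℂ) + d * M) := by ring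
    rw [h4]
    exact h3
  refine ⟨hμpos, ?_⟩
  clear_value μ
  have e1 : (d : ℝ) * (μ * (-M)).im = lam * μ.im := by
    have h2 : (d : ℂ) * (μ * (-M)) = 1 + (lam : ℂ) * μ := by linear_combination -h1
    have h3 := congrArg Complex.im h2
    rw [← Complex.ofReal_natCast, Complex.im_ofReal_mul, Complex.add_im, Complex.one_im, zero_add,
      Complex.im_ofReal_mul] at h3
    exact h3
  have e2 : ((d : ℝ) - 1) * (μ * (-M) ^ 2).im = lam * (μ * (-M)).im - μ.im := by
    have h2 : (((d : ℝ) - 1 : ℝ) : ℂ) * (μ * (-M) ^ 2) = (lam : ℂ) * (μ * (-M)) - μ := by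
      push_cast
      linear_combination μ * hquad
    have h3 := congrArg Complex.im h2
    rw [Complex.im_ofReal_mul, Complex.sub_im, Complex.im_ofReal_mul] at h3
    exact h3
  have e1' : (μ * (-M)).im = lam / d * μ.im := by
    rw [div_mul_eq_mul_div, eq_div_iff hd0.ne']
    linarith
  have e2' : (μ * (-M) ^ 2).im = (lam ^ 2 - d) / (d * (d - 1)) * μ.im := by
    rw [div_mul_eq_mul_div, eq_div_iff (by positivity)]
    linear_combination (d : ℝ) * e2 + lam * e1
  unfold SigStar starDist
  by_cases hxy : x = y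
  · simp [hxy]
  · by_cases hn : x = none ∨ y = none
    · simp only [hxy, hn, if_false, if_true, pow_one]
      exact e1'
    · simp only [hxy, hn, if_false]
      exact e2'

/-- (L3) -/
theorem L3 {d : ℕ} (hd : 3 ≤ d) {lam : ℝ} (hlam : |lam| < 2 * Real.sqrt ((d : ℝ) - 1))
    {m : ℕ → ℂ} (hm : ∀ l, IsTreeStieltjes d (H814.zl lam l) (m l)) (x y : Option (Fin d)) :
    Tendsto (fun l => (H814.Kz d (H814.zl lam l) (m l) x y).im /
      (H814.Kz d (H814.zl lam l) (m l) none none).im) atTop (𝓝 (SigStar d lam x y)) := by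
  have hm1 : Tendsto m atTop (𝓝 (mE d lam)) := tendsto_mE hd hlam eta_pos tendsto_eta hm
  have hz1 : Tendsto (fun l => H814.zl lam l) atTop (𝓝 (lam : ℂ)) := by
    have h1 : Tendsto (fun l : ℕ => (lam : ℂ) + ((1 / ((l : ℝ) + 1) : ℝ) : ℂ) * I) atTop
        (𝓝 ((lam : ℂ) + ((0 : ℝ) : ℂ) * I)) :=
      tendsto_const_nhds.add
        (((Complex.continuous_ofReal.tendsto 0).comp tendsto_eta).mul tendsto_const_nhds)
    rw [Complex.ofReal_zero, zero_mul, add_zero] at h1
    exact h1
  have hpos := im_K_real hd hlam (none : Option (Fin d)) none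
  have hne : (lam : ℂ) + d * mE d lam ≠ 0 := by
    intro h
    have := hpos.1
    rw [h] at this
    simp at this
  have hK : ∀ x y : Option (Fin d), Tendsto (fun l => (H814.Kz d (H814.zl lam l) (m l) x y).im)
      atTop (𝓝 (((-1 / ((lam : ℂ) + d * mE d lam)) * (-(mE d lam)) ^ starDist x y).im)) := by
    intro x y
    unfold H814.Kz
    refine (Complex.continuous_im.tendsto _).comp ?_
    exact (Tendsto.div tendsto_const_nhds (hz1.add (hm1.const_mul _)) hne).mul (hm1.neg.pow _)
  have h0 := hK none none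
  have h2 := (hK x y).div h0 (by
    rw [hpos.2]
    simp only [SigStar, if_true, one_mul]
    exact hpos.1.ne')
  rw [hpos.2, (im_K_real hd hlam x y).2] at h2
  have h3 : SigStar d lam x y * (-1 / ((lam : ℂ) + d * mE d lam)).im /
      (SigStar d lam none none * (-1 / ((lam : ℂ) + d * mE d lam)).im) = SigStar d lam x y := by
    simp only [SigStar, if_true, one_mul]
    exact mul_div_cancel_right₀ _ hpos.1.ne'
  rw [h3] at h2
  exact h2

/-- submatrices of the star covariance -/
lemma posDef_sub {d p : ℕ} (hd : 3 ≤ d) (hp : p < d) {lam : ℝ}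
    (hlam : |lam| < 2 * Real.sqrt ((d : ℝ) - 1)) (e : Fin p → Fin d)
    (he : Function.Injective e) :
    ((SigStar d lam).submatrix (Option.map e) (Option.map e)).PosDef := by
  have hd0 : (0 : ℝ) < d := by
    have : (3 : ℝ) ≤ d := by exact_mod_cast hd
    linarith
  have hq0 := dm1_pos hd
  have hdl : 0 < (d : ℝ) ^ 2 - lam ^ 2 := by
    have := disc_pos hd hlam
    nlinarith [sq_nonneg ((d : ℝ) - 2)]
  set c : ℝ := (lam ^ 2 - d) / (d * (d - 1)) with hc
  have hc1 : 0 < 1 - c := by
    have : 1 - c = ((d : ℝ) ^ 2 - lam ^ 2) / (d * (d - 1)) := by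
      rw [hc]; field_simp; ring
    rw [this]
    positivity
  have hc2 : c - (lam / d) ^ 2 = -((1 - c) / d) := by
    rw [hc]; field_simp; ring
  have hS : ∀ x y : Option (Fin p), ((SigStar d lam).submatrix (Option.map e) (Option.map e)) x y =
      if x = y then 1 else if x = none ∨ y = none then lam / d else c := by
    intro x y
    simp only [Matrix.submatrix_apply, SigStar, Option.map_eq_none_iff]
    have : (Option.map e x = Option.map e y) ↔ x = y :=
      (Option.map_injective he).eq_iff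
    simp only [this]
    rfl
  refine Matrix.PosDef.of_dotProduct_mulVec_pos ?_ ?_
  · ext x y
    rw [Matrix.conjTranspose_apply, star_trivial, hS, hS]
    by_cases h : x = y
    · subst h; rfl
    · have h' : ¬ y = x := fun h1 => h h1.symm
      simp only [h, h', if_false, or_comm]
  · intro u hu
    set a := u none with ha
    set s := ∑ j : Fin p, u (some j) with hs
    set Q := ∑ j : Fin p, u (some j) ^ 2 with hQ
    have hform : star u ⬝ᵥ (((SigStar d lam).submatrix (Option.map e) (Option.map e)) *ᵥ u) =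
        (a + lam / d * s) ^ 2 + (1 - c) * (Q - s ^ 2 / d) := by
      have h1 : star u ⬝ᵥ (((SigStar d lam).submatrix (Option.map e) (Option.map e)) *ᵥ u) =
          a ^ 2 + 2 * (lam / d) * a * s + (c * s ^ 2 + (1 - c) * Q) := by
        simp only [dotProduct, Matrix.mulVec, star_trivial, hS, Fintype.sum_option]
        simp only [if_true, reduceCtorEq, if_false, true_or, or_true, or_self, one_mul,
          Option.some.injEq]
        have h2 : ∀ i : Fin p, ∑ j : Fin p, (if i = j then (1 : ℝ) else c) * u (some j) =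
            c * s + (1 - c) * u (some i) := by
          intro i
          have h3 : ∀ j : Fin p, (if i = j then (1 : ℝ) else c) * u (some j) =
              c * u (some j) + if i = j then (1 - c) * u (some j) else 0 := by
            intro j
            split_ifs <;> ring
          simp only [h3]
          rw [Finset.sum_add_distrib, ← Finset.mul_sum, Finset.sum_ite_eq]
          simp [hs]
        simp only [h2]
        have h4 : ∑ j : Fin p, lam / d * u (some j) = lam / d * s := by
          rw [← Finset.mul_sum]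
        rw [h4]
        have h5 : ∑ x : Fin p, u (some x) * (lam / d * u none + (c * s + (1 - c) * u (some x))) =
            lam / d * a * s + (c * s ^ 2 + (1 - c) * Q) := by
          have h6 : ∀ x : Fin p, u (some x) * (lam / d * u none + (c * s + (1 - c) * u (some x))) =
              (lam / d * a + c * s) * u (some x) + (1 - c) * u (some x) ^ 2 := by
            intro x; ring
          simp only [h6]
          rw [Finset.sum_add_distrib, ← Finset.mul_sum, ← Finset.mul_sum]
          ring
        rw [h5]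
        ring
      rw [h1]
      have h7 : c * s ^ 2 = (lam / d) ^ 2 * s ^ 2 - (1 - c) / d * s ^ 2 := by
        linear_combination (s ^ 2) * hc2
      rw [h7]
      ring
    rw [hform]
    have hcs : s ^ 2 ≤ p * Q := by
      have := sq_sum_le_card_mul_sum_sq (s := (Finset.univ : Finset (Fin p)))
        (f := fun j => u (some j))
      simpa [hs, hQ] using this
    have hQ0 : 0 ≤ Q := Finset.sum_nonneg fun j _ => sq_nonneg _
    have hpd : (p : ℝ) + 1 ≤ d := by exact_mod_cast hp
    have h8 : Q / d ≤ Q - s ^ 2 / d := by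
      rw [le_sub_iff_add_le, ← add_div, div_le_iff₀ hd0]
      nlinarith
    rcases hQ0.lt_or_eq with hQ1 | hQ1
    · have h9 : 0 < Q / d := by positivity
      have h10 : 0 < (1 - c) * (Q - s ^ 2 / d) := mul_pos hc1 (lt_of_lt_of_le h9 h8)
      have h11 : 0 ≤ (a + lam / d * s) ^ 2 := sq_nonneg _
      linarith
    · have h9 : ∀ j : Fin p, u (some j) = 0 := by
        intro j
        have := (Finset.sum_eq_zero_iff_of_nonneg
          (fun j _ => sq_nonneg (u (some j)))).1 hQ1.symm j (Finset.mem_univ j)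
        exact pow_eq_zero_iff (two_ne_zero) |>.1 this
      have hs0 : s = 0 := by
        rw [hs]
        exact Finset.sum_eq_zero (fun j _ => h9 j)
      have ha0 : a ≠ 0 := by
        intro h
        apply hu
        funext x
        cases x with
        | none => exact h
        | some j => exact h9 j
      rw [hs0, ← hQ1]
      have : 0 < a ^ 2 := by positivity
      simpa using this

/-- (L5), reduced star -/
theorem L5_star {q : ℕ} (hq : 2 ≤ q) {lam : ℝ}
    (hlam : |lam| < 2 * Real.sqrt (((q + 1 : ℕ) : ℝ) - 1)) :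
    ((SigStar (q + 1) lam).submatrix (Option.map (Fin.castSucc : Fin q → Fin (q + 1)))
      (Option.map Fin.castSucc)).PosDef :=
  posDef_sub (by omega) (by omega) hlam _ (Fin.castSucc_injective q)

/-- (L5), edge -/
theorem L5_edge {q : ℕ} (hq : 2 ≤ q) {lam : ℝ}
    (hlam : |lam| < 2 * Real.sqrt (((q + 1 : ℕ) : ℝ) - 1)) :
    ((SigStar (q + 1) lam).submatrix (Option.map (fun _ : Fin 1 => (0 : Fin (q + 1))))
      (Option.map (fun _ : Fin 1 => (0 : Fin (q + 1))))).PosDef :=
  posDef_sub (by omega) (by omega) hlam _ (fun _ _ _ => Subsingleton.elim _ _)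

end Vale.Agent.P156.H904
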