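import Vale.Agent.P156.H904.D3
import Vale.Agent.P156.H653.Defs

/-!
# Boundary values at a real bulk energy (P156, block D3)
-/

open Complex Filter Topology MeasureTheory Matrix

noncomputable section

namespace Vale.Agent.P156.H904

open Vale.Agent.P156

/-- `(d-1)` as a real number is positive -/
lemma dm1_pos {d : ℕ} (hd : 3 ≤ d) : (0 : ℝ) < (d : ℝ) - 1 := by
  have : (3 : ℝ) ≤ d := by exact_mod_cast hd
  linarith

lemma disc_pos {d : ℕ} (hd : 3 ≤ d) {E : ℝ} (hE : |E| < 2 * Real.sqrt ((d : ℝ) - 1)) :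
    0 < 4 * ((d : ℝ) - 1) - E ^ 2 := by
  have h1 := dm1_pos hd
  have h2 : E ^ 2 < (2 * Real.sqrt ((d : ℝ) - 1)) ^ 2 := by
    rw [← sq_abs E]
    have := abs_nonneg E
    gcongr
  rw [mul_pow, Real.sq_sqrt h1.le] at h2
  linarith

lemma mE_re (d : ℕ) (hd : 3 ≤ d) (E : ℝ) : (mE d E).re = -E / (2 * ((d : ℝ) - 1)) := by
  have h : mE d E = ((-E / (2 * ((d : ℝ) - 1)) : ℝ) : ℂ) +
      ((Real.sqrt (4 * ((d : ℝ) - 1) - E ^ 2) / (2 * ((d : ℝ) - 1)) : ℝ) : ℂ) * I := by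
    unfold mE
    have : (d : ℂ) - 1 ≠ 0 := by
      have := dm1_pos hd
      have h2 : (((d : ℝ) - 1 : ℝ) : ℂ) ≠ 0 := by exact_mod_cast this.ne'
      push_cast at h2
      exact h2
    push_cast
    field_simp
  rw [h, Complex.add_re, Complex.ofReal_re, Complex.re_ofReal_mul, Complex.I_re]
  ring

lemma mE_im (d : ℕ) (hd : 3 ≤ d) (E : ℝ) :
    (mE d E).im = Real.sqrt (4 * ((d : ℝ) - 1) - E ^ 2) / (2 * ((d : ℝ) - 1)) := by
  have h : mE d E = ((-E / (2 * ((d : ℝ) - 1)) : ℝ) : ℂ) +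
      ((Real.sqrt (4 * ((d : ℝ) - 1) - E ^ 2) / (2 * ((d : ℝ) - 1)) : ℝ) : ℂ) * I := by
    unfold mE
    have : (d : ℂ) - 1 ≠ 0 := by
      have := dm1_pos hd
      have h2 : (((d : ℝ) - 1 : ℝ) : ℂ) ≠ 0 := by exact_mod_cast this.ne'
      push_cast at h2
      exact h2
    push_cast
    field_simp
  rw [h, Complex.add_im, Complex.ofReal_im, Complex.im_ofReal_mul, Complex.I_im]
  ring

lemma mE_im_pos {d : ℕ} (hd : 3 ≤ d) {E : ℝ} (hE : |E| < 2 * Real.sqrt ((d : ℝ) - 1)) :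
    0 < (mE d E).im := by
  rw [mE_im d hd]
  have h1 := dm1_pos hd
  have h2 := disc_pos hd hE
  positivity

lemma mE_normSq {d : ℕ} (hd : 3 ≤ d) {E : ℝ} (hE : |E| < 2 * Real.sqrt ((d : ℝ) - 1)) :
    Complex.normSq (mE d E) = 1 / ((d : ℝ) - 1) := by
  rw [Complex.normSq_apply, mE_re d hd, mE_im d hd]
  have h1 := dm1_pos hd
  have h2 := disc_pos hd hE
  have h3 := Real.mul_self_sqrt h2.le
  set S := Real.sqrt (4 * ((d : ℝ) - 1) - E ^ 2) with hS
  clear_value S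
  field_simp
  linear_combination h3

lemma mE_quad {d : ℕ} (hd : 3 ≤ d) {E : ℝ} (hE : |E| < 2 * Real.sqrt ((d : ℝ) - 1)) :
    ((d : ℂ) - 1) * mE d E ^ 2 + (E : ℂ) * mE d E + 1 = 0 := by
  have h1 := dm1_pos hd
  have h2 := disc_pos hd hE
  have h3 : ((Real.sqrt (4 * ((d : ℝ) - 1) - E ^ 2) : ℝ) : ℂ) ^ 2 =
      4 * ((d : ℂ) - 1) - (E : ℂ) ^ 2 := by
    rw [← Complex.ofReal_pow, Real.sq_sqrt h2.le]
    push_cast
    ring
  have h4 : (d : ℂ) - 1 ≠ 0 := by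
    have h2 : (((d : ℝ) - 1 : ℝ) : ℂ) ≠ 0 := by exact_mod_cast h1.ne'
    push_cast at h2
    exact h2
  unfold mE
  field_simp
  have hI : I ^ 2 = -1 := Complex.I_sq
  linear_combination ((Real.sqrt (4 * ((d : ℝ) - 1) - E ^ 2) : ℝ) : ℂ) ^ 2 * hI - h3

/-- quantitative continuity of the root at a real bulk energy -/
lemma norm_sub_mE_le {d : ℕ} (hd : 3 ≤ d) {E : ℝ} (hE : |E| < 2 * Real.sqrt ((d : ℝ) - 1))
    {η : ℝ} (hη : 0 < η) {m : ℂ} (hm : IsTreeStieltjes d ((E : ℂ) + η * I) m) :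
    ‖m - mE d E‖ ≤ η / (((d : ℝ) - 1) * (mE d E).im) := by
  have hd' := dm1_pos hd
  have hpos := mE_im_pos hd hE
  have hquad : (((d : ℝ) - 1 : ℝ) : ℂ) * m ^ 2 + ((E : ℂ) + η * I) * m + 1 = 0 := by
    push_cast
    exact hm.1
  have hquad' : (((d : ℝ) - 1 : ℝ) : ℂ) * mE d E ^ 2 + (E : ℂ) * mE d E + 1 = 0 := by
    push_cast
    exact mE_quad hd hE
  have h1 := root_diff hquad hquad'
  have h2 : (E : ℂ) + η * I - E = η * I := by ring
  rw [h2] at h1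
  have hzim : 0 < ((E : ℂ) + η * I).im := by rw [line_im]; exact hη
  have hns := normSq_lt hquad hzim hm.2
  have hm1 : ‖m‖ ≤ 1 := by
    rw [Complex.normSq_eq_norm_sq] at hns
    have h3 : (3 : ℝ) ≤ d := by exact_mod_cast hd
    have h4 : ‖m‖ ^ 2 ≤ 1 := by nlinarith [sq_nonneg ‖m‖]
    nlinarith [norm_nonneg m]
  have h3 : ‖m - mE d E‖ * ‖(((d : ℝ) - 1 : ℝ) : ℂ) * (m + mE d E) + E‖ = η * ‖m‖ := by
    rw [← norm_mul, h1, norm_neg, norm_mul, norm_mul, Complex.norm_I, Complex.norm_real,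
      Real.norm_eq_abs, abs_of_pos hη, mul_one]
  have h4 : ((d : ℝ) - 1) * (mE d E).im ≤ ‖(((d : ℝ) - 1 : ℝ) : ℂ) * (m + mE d E) + E‖ := by
    refine le_trans ?_ (Complex.im_le_norm _)
    rw [Complex.add_im, Complex.im_ofReal_mul, Complex.add_im, Complex.ofReal_im, add_zero]
    have := hm.2
    nlinarith
  rw [le_div_iff₀ (by positivity)]
  calc ‖m - mE d E‖ * (((d : ℝ) - 1) * (mE d E).im)
      ≤ ‖m - mE d E‖ * ‖(((d : ℝ) - 1 : ℝ) : ℂ) * (m + mE d E) + E‖ := by gcongr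
    _ = η * ‖m‖ := h3
    _ ≤ η * 1 := by gcongr
    _ = η := mul_one η

/-- the roots converge to `mE` as the imaginary part tends to `0` -/
theorem tendsto_mE {d : ℕ} (hd : 3 ≤ d) {E : ℝ} (hE : |E| < 2 * Real.sqrt ((d : ℝ) - 1))
    {α : Type*} {l : Filter α} {η : α → ℝ} (hη : ∀ a, 0 < η a) (hη0 : Tendsto η l (𝓝 0))
    {m : α → ℂ} (hm : ∀ a, IsTreeStieltjes d ((E : ℂ) + η a * I) (m a)) :
    Tendsto m l (𝓝 (mE d E)) := by
  rw [tendsto_iff_norm_sub_tendsto_zero]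
  refine squeeze_zero (fun _ => norm_nonneg _) (fun a => norm_sub_mE_le hd hE (hη a) (hm a)) ?_
  have := hη0.div_const (((d : ℝ) - 1) * (mE d E).im)
  simpa using this

lemma mE_ne_zero {d : ℕ} (hd : 3 ≤ d) {E : ℝ} (hE : |E| < 2 * Real.sqrt ((d : ℝ) - 1)) :
    mE d E ≠ 0 := by
  intro h
  have := mE_im_pos hd hE
  rw [h] at this
  simp at this

lemma one_sub_sq_ne {m : ℂ} (hm : 0 < m.im) : 1 - m ^ 2 ≠ 0 := by
  intro h1
  have h2 : (m - 1) * (m + 1) = 0 := by linear_combination -h1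
  rcases mul_eq_zero.1 h2 with h3 | h3
  · have := congrArg Complex.im h3
    simp at this
    linarith
  · have := congrArg Complex.im h3
    simp at this
    linarith

/-- value of the log potential at a real bulk energy -/
theorem Um_mE {q : ℕ} (hd : 3 ≤ q + 1) {E : ℝ}
    (hE : |E| < 2 * Real.sqrt (((q + 1 : ℕ) : ℝ) - 1)) :
    H814.Um (q + 1) (mE (q + 1) E) = H653.Uval q E := by
  have hq : (0 : ℝ) < q := by
    have := dm1_pos hd
    push_cast at this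
    linarith
  have hns := mE_normSq hd hE
  push_cast at hns
  rw [add_sub_cancel_right] at hns
  have hre := mE_re (q + 1) hd E
  push_cast at hre
  rw [add_sub_cancel_right] at hre
  set m := mE (q + 1) E with hm
  have h1 : ‖m‖ ^ 2 = 1 / q := by rw [← Complex.normSq_eq_norm_sq]; exact hns
  have hmn : Real.log ‖m‖ = -(1 / 2) * Real.log q := by
    have : 2 * Real.log ‖m‖ = Real.log (‖m‖ ^ 2) := by rw [Real.log_pow]; push_cast; ring
    rw [h1, one_div, Real.log_inv] at this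
    linarith
  have hE2 : 0 < ((q : ℝ) + 1) ^ 2 - E ^ 2 := by
    have := disc_pos hd hE
    push_cast at this
    nlinarith [sq_nonneg ((q : ℝ) - 1)]
  have h2 : ‖1 - m ^ 2‖ ^ 2 = (((q : ℝ) + 1) ^ 2 - E ^ 2) / (q : ℝ) ^ 2 := by
    rw [← Complex.normSq_eq_norm_sq, Complex.normSq_apply]
    have e1 : (1 - m ^ 2).re = 1 - (m.re ^ 2 - m.im ^ 2) := by
      simp [pow_two]
    have e2 : (1 - m ^ 2).im = -(2 * m.re * m.im) := by
      simp [pow_two]
      ring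
    rw [e1, e2]
    have e3 : m.im ^ 2 = 1 / q - m.re ^ 2 := by
      rw [← hns, Complex.normSq_apply]; ring
    have e4 : (2 * m.re * m.im) ^ 2 = 4 * m.re ^ 2 * (1 / q - m.re ^ 2) := by
      rw [← e3]; ring
    have e5 : (1 - (m.re ^ 2 - m.im ^ 2)) * (1 - (m.re ^ 2 - m.im ^ 2)) +
        -(2 * m.re * m.im) * -(2 * m.re * m.im) =
        (1 - (m.re ^ 2 - (1 / q - m.re ^ 2))) ^ 2 + 4 * m.re ^ 2 * (1 / q - m.re ^ 2) := by
      rw [← e4, ← e3]; ring
    rw [e5, hre]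
    field_simp
    ring
  have h3 : Real.log ‖1 - m ^ 2‖ =
      (1 / 2) * Real.log (((q : ℝ) + 1) ^ 2 - E ^ 2) - Real.log q := by
    have : 2 * Real.log ‖1 - m ^ 2‖ = Real.log (‖1 - m ^ 2‖ ^ 2) := by
      rw [Real.log_pow]; push_cast; ring
    rw [h2, Real.log_div hE2.ne' (by positivity), Real.log_pow] at this
    push_cast at this
    linarith
  unfold H814.Um H653.Uval
  rw [hmn, h3]
  push_cast
  ring

/-- the log potential converges to its value at the real energy -/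
theorem tendsto_Um {q : ℕ} (hd : 3 ≤ q + 1) {E : ℝ}
    (hE : |E| < 2 * Real.sqrt (((q + 1 : ℕ) : ℝ) - 1))
    {α : Type*} {l : Filter α} {η : α → ℝ} (hη : ∀ a, 0 < η a) (hη0 : Tendsto η l (𝓝 0))
    {m : α → ℂ} (hm : ∀ a, IsTreeStieltjes (q + 1) ((E : ℂ) + η a * I) (m a)) :
    Tendsto (fun a => H814.Um (q + 1) (m a)) l (𝓝 (H653.Uval q E)) := by
  have h1 := tendsto_mE hd hE hη hη0 hm
  rw [← Um_mE hd hE]
  unfold H814.Um
  have h2 : Tendsto (fun a => Real.log ‖m a‖) l (𝓝 (Real.log ‖mE (q + 1) E‖)) :=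
    h1.norm.log (norm_ne_zero_iff.2 (mE_ne_zero hd hE))
  have h3 : Tendsto (fun a => Real.log ‖1 - m a ^ 2‖) l (𝓝 (Real.log ‖1 - mE (q + 1) E ^ 2‖)) :=
    ((h1.pow 2).const_sub 1).norm.log (norm_ne_zero_iff.2 (one_sub_sq_ne (mE_im_pos hd hE)))
  exact (h3.const_mul _).sub h2

end Vale.Agent.P156.H904
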