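import Vale.Agent.P156.H904.LogDet
import Vale.Agent.P156.R2.Defs

/-!
# Log determinants: averaged convergence, and the boundary value `U(E)` (P156, block D3)
-/

open Complex Filter Topology MeasureTheory

noncomputable section

namespace Vale.Agent.P156.H904

lemma LL_sub_log_abs {ι : Type*} [Fintype ι] [Nonempty ι] (lam : ι → ℝ) {B E Y : ℝ}
    (hB : ∀ i, |lam i| ≤ B) (hY : 0 < Y) :
    |LL lam E Y - Real.log Y| ≤ ((B + |E|) / Y) ^ 2 / 2 := by
  have hterm : ∀ i, |Real.log ‖(lam i : ℂ) - ((E : ℂ) + Y * I)‖ - Real.log Y| ≤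
      ((B + |E|) / Y) ^ 2 / 2 := by
    intro i
    have hn : ‖(lam i : ℂ) - ((E : ℂ) + Y * I)‖ ^ 2 = (lam i - E) ^ 2 + Y ^ 2 := by
      rw [← Complex.normSq_eq_norm_sq, Complex.normSq_apply]
      simp
      ring
    have hpos : 0 < ‖(lam i : ℂ) - ((E : ℂ) + Y * I)‖ := norm_pos_iff.2 (term_ne hY)
    have h1 : Real.log ‖(lam i : ℂ) - ((E : ℂ) + Y * I)‖ - Real.log Y =
        (1 / 2) * Real.log (1 + ((lam i - E) / Y) ^ 2) := by
      have h2 : 1 + ((lam i - E) / Y) ^ 2 = ‖(lam i : ℂ) - ((E : ℂ) + Y * I)‖ ^ 2 / Y ^ 2 := by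
        rw [hn]; field_simp; ring
      rw [h2, Real.log_div (by positivity) (by positivity), Real.log_pow, Real.log_pow]
      push_cast
      ring
    have h3 : 0 ≤ ((lam i - E) / Y) ^ 2 := by positivity
    have h4 : 0 ≤ Real.log (1 + ((lam i - E) / Y) ^ 2) := Real.log_nonneg (by linarith)
    have h5 : Real.log (1 + ((lam i - E) / Y) ^ 2) ≤ ((lam i - E) / Y) ^ 2 := by
      have := Real.log_le_sub_one_of_pos (x := 1 + ((lam i - E) / Y) ^ 2) (by linarith)
      linarith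
    have h6 : ((lam i - E) / Y) ^ 2 ≤ ((B + |E|) / Y) ^ 2 := by
      rw [sq_le_sq, abs_div, abs_div]
      have h7 : |lam i - E| ≤ B + |E| := by
        refine (abs_sub _ _).trans ?_
        linarith [hB i]
      have h8 : B + |E| ≤ |(B + |E|)| := le_abs_self _
      have h9 : |lam i - E| ≤ |(B + |E|)| := h7.trans h8
      exact div_le_div_of_nonneg_right h9 (abs_nonneg Y)
    rw [h1, abs_of_nonneg (by positivity)]
    linarith
  have hc : (0 : ℝ) < Fintype.card ι := by exact_mod_cast Fintype.card_pos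
  have h1 : LL lam E Y - Real.log Y =
      (∑ i, (Real.log ‖(lam i : ℂ) - ((E : ℂ) + Y * I)‖ - Real.log Y)) / Fintype.card ι := by
    unfold LL
    rw [Finset.sum_sub_distrib, Finset.sum_const, Finset.card_univ, nsmul_eq_mul]
    field_simp
  rw [h1, abs_div, Nat.abs_cast, div_le_iff₀ hc]
  refine (Finset.abs_sum_le_sum_abs _ _).trans ?_
  refine (Finset.sum_le_card_nsmul _ _ _ (fun i _ => hterm i)).trans ?_
  rw [nsmul_eq_mul, Finset.card_univ]
  linarith

/-- for large `Y`, the log determinant at height `Y` is uniformly close to the log potential -/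
lemma exists_Y {q E B : ℝ} (hq : 0 < q) {m : ℝ → ℂ} (hm : IsRoot q E m) {ε : ℝ} (hε : 0 < ε)
    (δ : ℝ) : ∃ Y : ℝ, δ ≤ Y ∧ 0 < Y ∧ ∀ (ι : Type) [Fintype ι] [Nonempty ι] (lam : ι → ℝ),
      (∀ i, |lam i| ≤ B) → |LL lam E Y - UU q (m Y)| ≤ ε := by
  have h1 : ∀ᶠ Y in atTop, |UU q (m Y) - Real.log Y| ≤ ε / 2 := by
    have := (hm.tendsto_UU hq).abs
    rw [abs_zero] at this
    filter_upwards [this.eventually (gt_mem_nhds (show (0 : ℝ) < ε / 2 by linarith))] with Y hY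
    exact hY.le
  have h2 : ∀ᶠ Y : ℝ in atTop, ((B + |E|) / Y) ^ 2 / 2 ≤ ε / 2 := by
    have : Tendsto (fun Y : ℝ => ((B + |E|) / Y) ^ 2 / 2) atTop (𝓝 (0 ^ 2 / 2)) :=
      ((tendsto_const_nhds.div_atTop tendsto_id).pow 2).div_const 2
    have h3 : ((0 : ℝ) ^ 2 / 2) < ε / 2 := by
      simp
      exact hε
    filter_upwards [this.eventually (gt_mem_nhds h3)] with Y hY
    exact hY.le
  obtain ⟨Y, hY1, hY2, hY3, hY4⟩ :=
    (h1.and (h2.and ((eventually_ge_atTop δ).and (eventually_gt_atTop 0)))).exists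
  refine ⟨Y, hY3, hY4, ?_⟩
  intro ι _ _ lam hlam
  have h3 := LL_sub_log_abs lam (E := E) hlam hY4
  have h4 : LL lam E Y - UU q (m Y) = (LL lam E Y - Real.log Y) - (UU q (m Y) - Real.log Y) := by
    ring
  rw [h4]
  refine (abs_sub _ _).trans ?_
  linarith

lemma avg_mono {α : Type*} (s : Finset α) {f g : α → ℝ} (h : ∀ ω ∈ s, f ω ≤ g ω) :
    avg s f ≤ avg s g := by
  unfold avg
  have := Finset.sum_le_sum h
  gcongr

lemma avg_nonneg {α : Type*} (s : Finset α) {f : α → ℝ} (h : ∀ ω ∈ s, 0 ≤ f ω) :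
    0 ≤ avg s f := by
  unfold avg
  exact div_nonneg (Finset.sum_nonneg h) (Nat.cast_nonneg _)

lemma avg_le_of_le {α : Type*} (s : Finset α) {f : α → ℝ} {c : ℝ} (hc : 0 ≤ c)
    (h : ∀ ω ∈ s, f ω ≤ c) : avg s f ≤ c := by
  unfold avg
  rcases s.eq_empty_or_nonempty with rfl | hs
  · simpa using hc
  · have h1 : (0 : ℝ) < s.card := by exact_mod_cast hs.card_pos
    rw [div_le_iff₀ h1]
    refine (Finset.sum_le_card_nsmul _ _ _ h).trans ?_
    rw [nsmul_eq_mul]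
    linarith

lemma avg_add {α : Type*} (s : Finset α) (f g : α → ℝ) :
    avg s (fun ω => f ω + g ω) = avg s f + avg s g := by
  unfold avg
  rw [Finset.sum_add_distrib, add_div]

lemma avg_const_le {α : Type*} (s : Finset α) {c : ℝ} (hc : 0 ≤ c) :
    avg s (fun _ => c) ≤ c :=
  avg_le_of_le s hc (fun _ _ => le_rfl)

/-- the averaged form of `logdet_diff` -/
lemma avg_logdet_diff {q E : ℝ} (hq : 0 < q) {m : ℝ → ℂ} (hm : IsRoot q E m) {δ Y : ℝ}
    (hδ : 0 < δ) (hY : δ ≤ Y) {ε : ℝ} (hε : 0 ≤ ε) {Ω : Type*} (s : Finset Ω)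
    {ι : Type*} [Fintype ι] (lam : Ω → ι → ℝ)
    (h : ∀ ω ∈ s, |LL (lam ω) E Y - UU q (m Y)| ≤ ε) :
    avg s (fun ω => |LL (lam ω) E δ - UU q (m δ)|) ≤ ε +
      ∫ η in δ..Y, avg s (fun ω => |TT (lam ω) E η - (m η / (1 - m η ^ 2)).im|) := by
  have hIcc : Set.uIcc δ Y = Set.Icc δ Y := Set.uIcc_of_le hY
  have hsub : Set.Icc δ Y ⊆ Set.Ici δ := fun x hx => hx.1
  have hswap : avg s (fun ω => ∫ η in δ..Y,
      |TT (lam ω) E η - (m η / (1 - m η ^ 2)).im|) = ∫ η in δ..Y,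
      avg s (fun ω => |TT (lam ω) E η - (m η / (1 - m η ^ 2)).im|) := by
    unfold avg
    rw [intervalIntegral.integral_div, intervalIntegral.integral_finsetSum]
    intro ω _
    apply ContinuousOn.intervalIntegrable
    rw [hIcc]
    exact (((continuousOn_TT (lam ω) hδ).sub (hm.continuousOn_md hq hδ)).abs).mono hsub
  rw [← hswap]
  have h1 : avg s (fun ω => |LL (lam ω) E δ - UU q (m δ)|) ≤
      avg s (fun ω => ε + ∫ η in δ..Y, |TT (lam ω) E η - (m η / (1 - m η ^ 2)).im|) := by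
    refine avg_mono _ (fun ω hω => ?_)
    refine (logdet_diff hq hm hδ hY (lam ω)).trans ?_
    gcongr
    exact h ω hω
  refine h1.trans ?_
  rw [avg_add]
  have h2 := avg_const_le s hε
  linarith

lemma continuousOn_avg {q E : ℝ} (hq : 0 < q) {m : ℝ → ℂ} (hm : IsRoot q E m) {δ : ℝ}
    (hδ : 0 < δ) {Ω : Type*} (s : Finset Ω) {ι : Type*} [Fintype ι] (lam : Ω → ι → ℝ) :
    ContinuousOn (fun η => avg s (fun ω => |TT (lam ω) E η - (m η / (1 - m η ^ 2)).im|))
      (Set.Ici δ) := by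
  unfold avg
  refine ContinuousOn.div_const ?_ _
  refine continuousOn_finsetSum _ (fun ω _ => ?_)
  exact ((continuousOn_TT (lam ω) hδ).sub (hm.continuousOn_md hq hδ)).abs

lemma avg_bound {q E : ℝ} (hq : 0 < q) {m : ℝ → ℂ} (hm : IsRoot q E m) {δ η : ℝ}
    (hδ : 0 < δ) (hη : δ ≤ η) {Ω : Type*} (s : Finset Ω) {ι : Type*} [Fintype ι]
    (lam : Ω → ι → ℝ) :
    ‖avg s (fun ω => |TT (lam ω) E η - (m η / (1 - m η ^ 2)).im|)‖ ≤ 2 / δ := by
  have hη' : 0 < η := lt_of_lt_of_le hδ hη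
  rw [Real.norm_eq_abs, abs_of_nonneg (avg_nonneg _ (fun ω _ => abs_nonneg _))]
  refine avg_le_of_le _ (by positivity) (fun ω _ => ?_)
  refine (abs_sub _ _).trans ?_
  have h1 := TT_abs_le (lam ω) (E := E) hη'
  have h2 : |(m η / (1 - m η ^ 2)).im| ≤ 1 / η :=
    (Complex.abs_im_le_norm _).trans (hm.norm_md_le hq hη')
  have h3 : 1 / η ≤ 1 / δ := by gcongr
  have h4 : 2 / δ = 1 / δ + 1 / δ := by ring
  linarith

lemma tendsto_int {q E : ℝ} (hq : 0 < q) {m : ℝ → ℂ} (hm : IsRoot q E m)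
    {α : Type*} {l : Filter α} [l.IsCountablyGenerated] {Ω : α → Type*}
    (s : ∀ a, Finset (Ω a)) {ι : α → Type*} [∀ a, Fintype (ι a)]
    (lam : ∀ a, Ω a → ι a → ℝ)
    (hT : ∀ η : ℝ, 0 < η → Tendsto
      (fun a => avg (s a) (fun ω => |TT (lam a ω) E η - (m η / (1 - m η ^ 2)).im|)) l (𝓝 0))
    {δ Y : ℝ} (hδ : 0 < δ) (hY : δ ≤ Y) :
    Tendsto (fun a => ∫ η in δ..Y,
        avg (s a) (fun ω => |TT (lam a ω) E η - (m η / (1 - m η ^ 2)).im|)) l (𝓝 0) := by
  have h0 : (0 : ℝ) = ∫ η in δ..Y, (0 : ℝ) := by simp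
  rw [h0]
  refine intervalIntegral.tendsto_integral_filter_of_dominated_convergence
    (fun _ => 2 / δ) ?_ ?_ ?_ ?_
  · refine Eventually.of_forall (fun a => ?_)
    have : ContinuousOn (fun η => avg (s a)
        (fun ω => |TT (lam a ω) E η - (m η / (1 - m η ^ 2)).im|)) (Set.uIoc δ Y) := by
      refine (continuousOn_avg hq hm hδ (s a) (lam a)).mono ?_
      rw [Set.uIoc_of_le hY]
      intro x hx
      exact hx.1.le
    exact this.aestronglyMeasurable measurableSet_uIoc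
  · refine Eventually.of_forall (fun a => ?_)
    refine Eventually.of_forall (fun η hη => ?_)
    rw [Set.uIoc_of_le hY] at hη
    exact avg_bound hq hm hδ hη.1.le (s a) (lam a)
  · exact intervalIntegrable_const
  · refine Eventually.of_forall (fun η hη => ?_)
    rw [Set.uIoc_of_le hY] at hη
    exact hT η (hδ.trans hη.1)

/-- **Log determinants (D3).**  If the imaginary parts of the Stieltjes transforms converge in
`L¹` at every fixed height, then the normalised log determinants converge in `L¹` to the log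
potential. -/
theorem avg_logdet {q E B : ℝ} (hq : 0 < q) {m : ℝ → ℂ} (hm : IsRoot q E m)
    {α : Type*} {l : Filter α} [l.IsCountablyGenerated] {Ω : α → Type*}
    (s : ∀ a, Finset (Ω a)) {ι : α → Type} [∀ a, Fintype (ι a)]
    (lam : ∀ a, Ω a → ι a → ℝ) (hne : ∀ᶠ a in l, Nonempty (ι a))
    (hB : ∀ a, ∀ ω ∈ s a, ∀ i, |lam a ω i| ≤ B)
    (hT : ∀ η : ℝ, 0 < η → Tendsto
      (fun a => avg (s a) (fun ω => |TT (lam a ω) E η - (m η / (1 - m η ^ 2)).im|)) l (𝓝 0))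
    {δ : ℝ} (hδ : 0 < δ) :
    Tendsto (fun a => avg (s a) (fun ω => |LL (lam a ω) E δ - UU q (m δ)|)) l (𝓝 0) := by
  rw [Metric.tendsto_nhds]
  intro ε' hε'
  obtain ⟨ε, hε, hε2⟩ : ∃ ε : ℝ, 0 < ε ∧ ε + ε < ε' := ⟨ε' / 3, by linarith, by linarith⟩
  obtain ⟨Y, hY1, hY2, hY3⟩ := exists_Y (B := B) hq hm hε δ
  have hev : ∀ᶠ a in l, (∫ η in δ..Y,
      avg (s a) (fun ω => |TT (lam a ω) E η - (m η / (1 - m η ^ 2)).im|)) < ε :=
    (tendsto_int hq hm s lam hT hδ hY1).eventually (gt_mem_nhds hε)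
  filter_upwards [hev, hne] with a ha hnea
  have h1 := avg_logdet_diff hq hm hδ hY1 hε.le (s a) (lam a)
    (fun ω hω => hY3 (ι a) (lam a ω) (hB a ω hω))
  rw [Real.dist_eq, sub_zero, abs_of_nonneg (avg_nonneg _ (fun ω _ => abs_nonneg _))]
  linarith

end Vale.Agent.P156.H904
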