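import Vale.Agent.P156.H904.LogPot

/-!
# Log determinants from the Stieltjes transform (P156, block D3)
-/

open Complex Filter Topology MeasureTheory

noncomputable section

namespace Vale.Agent.P156.H904

lemma IsRoot.norm_le {q E : ℝ} (hq : 0 < q) {m : ℝ → ℂ} (hm : IsRoot q E m) {η : ℝ}
    (hη : 0 < η) : ‖m η‖ ≤ 1 / η := by
  obtain ⟨h1, h2⟩ := hm η hη
  have h3 : m η * (((E : ℂ) + η * I) + q * m η) = -1 := by linear_combination h2
  have h4 : ‖m η‖ * ‖((E : ℂ) + η * I) + q * m η‖ = 1 := by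
    rw [← norm_mul, h3, norm_neg, norm_one]
  have h5 : η ≤ ‖((E : ℂ) + η * I) + q * m η‖ := by
    refine le_trans ?_ (Complex.im_le_norm _)
    simp only [Complex.add_im, Complex.ofReal_im, Complex.mul_im, Complex.I_re, Complex.I_im,
      Complex.ofReal_re, zero_mul, mul_zero, mul_one, zero_add, add_zero]
    nlinarith [mul_pos hq h1]
  rw [le_div_iff₀ hη]
  calc ‖m η‖ * η ≤ ‖m η‖ * ‖((E : ℂ) + η * I) + q * m η‖ := by gcongr
    _ = 1 := h4

/-- `m_d = m/(1-m²) = -1/(z + (q+1) m)` -/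
lemma md_mul {q : ℝ} {z m : ℂ} (h : (q : ℂ) * m ^ 2 + z * m + 1 = 0) (hm : 1 - m ^ 2 ≠ 0) :
    (z + ((q : ℂ) + 1) * m) * (m / (1 - m ^ 2)) = -1 := by
  field_simp
  linear_combination h

lemma IsRoot.norm_md_le {q E : ℝ} (hq : 0 < q) {m : ℝ → ℂ} (hm : IsRoot q E m) {η : ℝ}
    (hη : 0 < η) : ‖m η / (1 - m η ^ 2)‖ ≤ 1 / η := by
  obtain ⟨h1, h2⟩ := hm η hη
  have hzim : 0 < ((E : ℂ) + η * I).im := by rw [line_im]; exact hη
  obtain ⟨n1, n2, n3⟩ := nondeg hq hzim h1 h2
  have h3 := md_mul h2 n2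
  have h4 : ‖((E : ℂ) + η * I) + ((q : ℂ) + 1) * m η‖ * ‖m η / (1 - m η ^ 2)‖ = 1 := by
    rw [← norm_mul, h3, norm_neg, norm_one]
  have h5 : η ≤ ‖((E : ℂ) + η * I) + ((q : ℂ) + 1) * m η‖ := by
    refine le_trans ?_ (Complex.im_le_norm _)
    simp only [Complex.add_im, Complex.ofReal_im, Complex.mul_im, Complex.I_re, Complex.I_im,
      Complex.ofReal_re, zero_mul, mul_zero, mul_one, zero_add, add_zero, Complex.one_im,
      Complex.add_re, Complex.one_re]
    nlinarith [mul_pos hq h1]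
  rw [le_div_iff₀ hη]
  calc ‖m η / (1 - m η ^ 2)‖ * η ≤
      ‖m η / (1 - m η ^ 2)‖ * ‖((E : ℂ) + η * I) + ((q : ℂ) + 1) * m η‖ := by gcongr
    _ = 1 := by rw [mul_comm]; exact h4

lemma IsRoot.tendsto_zero {q E : ℝ} (hq : 0 < q) {m : ℝ → ℂ} (hm : IsRoot q E m) :
    Tendsto m atTop (𝓝 0) := by
  refine squeeze_zero_norm' (a := fun η => 1 / η) ?_ ?_
  · filter_upwards [eventually_gt_atTop 0] with η hη
    exact hm.norm_le hq hη
  · simpa using tendsto_inv_atTop_zero (𝕜 := ℝ)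

/-- `U(E + iY) - log Y → 0` -/
lemma IsRoot.tendsto_UU {q E : ℝ} (hq : 0 < q) {m : ℝ → ℂ} (hm : IsRoot q E m) :
    Tendsto (fun Y => UU q (m Y) - Real.log Y) atTop (𝓝 0) := by
  have h0 := hm.tendsto_zero hq
  -- first term
  have h1 : Tendsto (fun Y => Real.log ‖1 - m Y ^ 2‖) atTop (𝓝 0) := by
    have : Tendsto (fun Y => ‖1 - m Y ^ 2‖) atTop (𝓝 ‖(1 : ℂ) - 0 ^ 2‖) :=
      ((h0.pow 2).const_sub 1).norm
    have h2 := this.log (by simp)
    simpa using h2
  -- second term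
  have h2 : Tendsto (fun Y : ℝ => ((E : ℂ) + Y * I + q * m Y) / Y) atTop (𝓝 I) := by
    have e1 : Tendsto (fun Y : ℝ => (E : ℂ) / Y) atTop (𝓝 0) := by
      have : Tendsto (fun Y : ℝ => ((E / Y : ℝ) : ℂ)) atTop (𝓝 ((0 : ℝ) : ℂ)) :=
        (Complex.continuous_ofReal.tendsto 0).comp (tendsto_const_nhds.div_atTop tendsto_id)
      simpa using this
    have e2 : Tendsto (fun Y : ℝ => (q : ℂ) * m Y / Y) atTop (𝓝 0) := by
      have e3 : Tendsto (fun Y : ℝ => ((1 / Y : ℝ) : ℂ)) atTop (𝓝 ((0 : ℝ) : ℂ)) :=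
        (Complex.continuous_ofReal.tendsto 0).comp (tendsto_const_nhds.div_atTop tendsto_id)
      have e4 := (h0.const_mul (q : ℂ)).mul e3
      simp only [mul_zero, Complex.ofReal_zero] at e4
      refine e4.congr (fun Y => ?_)
      push_cast
      ring
    have e5 : Tendsto (fun Y : ℝ => (E : ℂ) / Y + I + (q : ℂ) * m Y / Y) atTop (𝓝 (0 + I + 0)) :=
      (e1.add tendsto_const_nhds).add e2
    rw [zero_add, add_zero] at e5
    refine e5.congr' ?_
    filter_upwards [eventually_gt_atTop 0] with Y hY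
    have : (Y : ℂ) ≠ 0 := by exact_mod_cast hY.ne'
    field_simp
  have h3 : Tendsto (fun Y : ℝ => -Real.log ‖m Y‖ - Real.log Y) atTop (𝓝 0) := by
    have h4 := (h2.norm).log (by simp)
    simp only [Complex.norm_I, Real.log_one] at h4
    refine h4.congr' ?_
    filter_upwards [eventually_gt_atTop 0] with Y hY
    obtain ⟨h5, h6⟩ := hm Y hY
    have h7 : m Y * (((E : ℂ) + Y * I) + q * m Y) = -1 := by linear_combination h6
    have h8 : ‖m Y‖ * ‖((E : ℂ) + Y * I) + q * m Y‖ = 1 := by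
      rw [← norm_mul, h7, norm_neg, norm_one]
    have h9 : ‖m Y‖ ≠ 0 := by
      intro h
      rw [h, zero_mul] at h8
      exact zero_ne_one h8
    have h10 : ‖((E : ℂ) + Y * I) + q * m Y‖ ≠ 0 := by
      intro h
      rw [h, mul_zero] at h8
      exact zero_ne_one h8
    have h11 : Real.log ‖m Y‖ + Real.log ‖((E : ℂ) + Y * I) + q * m Y‖ = 0 := by
      rw [← Real.log_mul h9 h10, h8, Real.log_one]
    rw [norm_div, Complex.norm_real, Real.norm_eq_abs, abs_of_pos hY,
      Real.log_div h10 hY.ne']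
    linarith
  have h4 := (h1.const_mul (-((q - 1) / 2))).add h3
  simp only [mul_zero, add_zero] at h4
  refine h4.congr (fun Y => ?_)
  unfold UU
  ring

/-- the averaged log determinant of a family of reals -/
def LL {ι : Type*} [Fintype ι] (lam : ι → ℝ) (E η : ℝ) : ℝ :=
  (∑ i, Real.log ‖(lam i : ℂ) - ((E : ℂ) + η * I)‖) / Fintype.card ι

/-- the imaginary part of the Stieltjes transform of a family of reals -/
def TT {ι : Type*} [Fintype ι] (lam : ι → ℝ) (E η : ℝ) : ℝ :=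
  (∑ i, (1 / ((lam i : ℂ) - ((E : ℂ) + η * I))).im) / Fintype.card ι

lemma term_ne {E η x : ℝ} (hη : 0 < η) : (x : ℂ) - ((E : ℂ) + η * I) ≠ 0 := by
  intro h
  have := congrArg Complex.im h
  simp at this
  exact hη.ne' this

lemma hasDerivAt_term {E η x : ℝ} (hη : 0 < η) :
    HasDerivAt (fun t : ℝ => Real.log ‖(x : ℂ) - ((E : ℂ) + t * I)‖)
      (1 / ((x : ℂ) - ((E : ℂ) + η * I))).im η := by
  have hline : HasDerivAt (fun t : ℝ => (x : ℂ) - ((E : ℂ) + t * I)) (-I) η := by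
    have h1 : HasDerivAt (fun t : ℝ => (t : ℂ)) 1 η := by
      simpa using (hasDerivAt_id η).ofReal_comp
    simpa using ((h1.mul_const I).const_add (E : ℂ)).const_sub (x : ℂ)
  refine (hasDerivAt_log_norm hline (term_ne hη)).congr_deriv ?_
  rw [show -I / ((x : ℂ) - ((E : ℂ) + η * I)) = -(I * (1 / ((x : ℂ) - ((E : ℂ) + η * I)))) by ring]
  simp

lemma hasDerivAt_LL {ι : Type*} [Fintype ι] (lam : ι → ℝ) {E η : ℝ} (hη : 0 < η) :
    HasDerivAt (fun t => LL lam E t) (TT lam E η) η := by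
  unfold LL TT
  refine HasDerivAt.div_const ?_ _
  exact HasDerivAt.fun_sum (fun i _ => hasDerivAt_term hη)

lemma TT_abs_le {ι : Type*} [Fintype ι] (lam : ι → ℝ) {E η : ℝ} (hη : 0 < η) :
    |TT lam E η| ≤ 1 / η := by
  unfold TT
  rw [abs_div, Nat.abs_cast]
  have h1 : |∑ i, (1 / ((lam i : ℂ) - ((E : ℂ) + η * I))).im| ≤ Fintype.card ι * (1 / η) := by
    refine (Finset.abs_sum_le_sum_abs _ _).trans ?_
    have : ∀ i ∈ (Finset.univ : Finset ι),
        |(1 / ((lam i : ℂ) - ((E : ℂ) + η * I))).im| ≤ 1 / η := by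
      intro i _
      refine (Complex.abs_im_le_norm _).trans ?_
      rw [norm_div, norm_one]
      have : η ≤ ‖(lam i : ℂ) - ((E : ℂ) + η * I)‖ := by
        have := Complex.abs_im_le_norm ((lam i : ℂ) - ((E : ℂ) + η * I))
        simp only [Complex.sub_im, Complex.ofReal_im, line_im, zero_sub, abs_neg,
          abs_of_pos hη] at this
        exact this
      gcongr
    refine (Finset.sum_le_card_nsmul _ _ _ this).trans ?_
    rw [nsmul_eq_mul, Finset.card_univ]
  rcases Nat.eq_zero_or_pos (Fintype.card ι) with h0 | h0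
  · rw [h0]
    simp
    positivity
  · have : (0 : ℝ) < Fintype.card ι := by exact_mod_cast h0
    rw [div_le_iff₀ this]
    linarith

lemma continuousOn_TT {ι : Type*} [Fintype ι] (lam : ι → ℝ) {E δ : ℝ} (hδ : 0 < δ) :
    ContinuousOn (fun η => TT lam E η) (Set.Ici δ) := by
  intro η hη
  have hη' : 0 < η := lt_of_lt_of_le hδ hη
  apply ContinuousAt.continuousWithinAt
  unfold TT
  refine ContinuousAt.div_const ?_ _
  refine tendsto_finsetSum _ (fun i _ => ?_)
  have h1 : ContinuousAt (fun t : ℝ => (lam i : ℂ) - ((E : ℂ) + t * I)) η := by fun_prop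
  exact (Complex.continuous_im.continuousAt).comp
    (ContinuousAt.div continuousAt_const h1 (term_ne hη'))

lemma IsRoot.continuousOn_md {q E : ℝ} (hq : 0 < q) {m : ℝ → ℂ} (hm : IsRoot q E m) {δ : ℝ}
    (hδ : 0 < δ) : ContinuousOn (fun η => (m η / (1 - m η ^ 2)).im) (Set.Ici δ) := by
  intro η hη
  have hη' : 0 < η := lt_of_lt_of_le hδ hη
  apply ContinuousAt.continuousWithinAt
  have hzim : 0 < ((E : ℂ) + η * I).im := by rw [line_im]; exact hη'
  obtain ⟨n1, n2, n3⟩ := nondeg hq hzim (hm η hη').1 (hm η hη').2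
  have hc : ContinuousAt m η := (hm.hasDerivAt hq hη').continuousAt
  exact (Complex.continuous_im.continuousAt).comp
    (ContinuousAt.div hc (continuousAt_const.sub (hc.pow 2)) n2)

/-- deterministic comparison of log determinants -/
theorem logdet_diff {q E : ℝ} (hq : 0 < q) {m : ℝ → ℂ} (hm : IsRoot q E m) {δ Y : ℝ}
    (hδ : 0 < δ) (hY : δ ≤ Y) {ι : Type*} [Fintype ι] (lam : ι → ℝ) :
    |LL lam E δ - UU q (m δ)| ≤ |LL lam E Y - UU q (m Y)| +
      ∫ η in δ..Y, |TT lam E η - (m η / (1 - m η ^ 2)).im| := by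
  have hIcc : Set.uIcc δ Y = Set.Icc δ Y := Set.uIcc_of_le hY
  have hsub : Set.Icc δ Y ⊆ Set.Ici δ := fun x hx => hx.1
  have i1 : IntervalIntegrable (fun η => TT lam E η) volume δ Y := by
    apply ContinuousOn.intervalIntegrable
    rw [hIcc]
    exact (continuousOn_TT lam hδ).mono hsub
  have i2 : IntervalIntegrable (fun η => (m η / (1 - m η ^ 2)).im) volume δ Y := by
    apply ContinuousOn.intervalIntegrable
    rw [hIcc]
    exact (hm.continuousOn_md hq hδ).mono hsub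
  have f1 : ∫ η in δ..Y, TT lam E η = LL lam E Y - LL lam E δ := by
    refine intervalIntegral.integral_eq_sub_of_hasDerivAt (f := fun t => LL lam E t) ?_ i1
    intro x hx
    rw [hIcc] at hx
    exact hasDerivAt_LL lam (lt_of_lt_of_le hδ hx.1)
  have f2 : ∫ η in δ..Y, (m η / (1 - m η ^ 2)).im = UU q (m Y) - UU q (m δ) := by
    refine intervalIntegral.integral_eq_sub_of_hasDerivAt (f := fun t => UU q (m t)) ?_ i2
    intro x hx
    rw [hIcc] at hx
    exact hm.hasDerivAt_UU hq (lt_of_lt_of_le hδ hx.1)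
  have f3 : ∫ η in δ..Y, (TT lam E η - (m η / (1 - m η ^ 2)).im) =
      (LL lam E Y - UU q (m Y)) - (LL lam E δ - UU q (m δ)) := by
    rw [intervalIntegral.integral_sub i1 i2, f1, f2]
    ring
  have f4 : LL lam E δ - UU q (m δ) = (LL lam E Y - UU q (m Y)) -
      ∫ η in δ..Y, (TT lam E η - (m η / (1 - m η ^ 2)).im) := by
    rw [f3]; ring
  rw [f4]
  refine (abs_sub _ _).trans ?_
  gcongr
  exact intervalIntegral.abs_integral_le_integral_abs hY

end Vale.Agent.P156.H904
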