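import Vale.Agent.P156.H904.Root

/-!
# The logarithmic potential of the Kesten–McKay law along a vertical line
-/

open Complex Filter Topology MeasureTheory

noncomputable section

namespace Vale.Agent.P156.H904

/-- `m` is the Stieltjes transform of the `q`-ary tree along the vertical line over `E`. -/
def IsRoot (q E : ℝ) (m : ℝ → ℂ) : Prop :=
  ∀ η : ℝ, 0 < η → 0 < (m η).im ∧ (q : ℂ) * m η ^ 2 + ((E : ℂ) + η * I) * m η + 1 = 0

/-- the logarithmic potential `-((q-1)/2) log|1-m²| - log|m|` -/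
def UU (q : ℝ) (m : ℂ) : ℝ := -((q - 1) / 2) * Real.log ‖1 - m ^ 2‖ - Real.log ‖m‖

lemma line_im (E η : ℝ) : ((E : ℂ) + η * I).im = η := by simp

lemma isRoot_mST {q : ℝ} (hq : 0 < q) (E : ℝ) :
    IsRoot q E (fun η => mST q ((E : ℂ) + η * I)) := by
  intro η hη
  exact ⟨mST_im_pos hq (by rw [line_im]; exact hη), mST_quad hq _⟩

lemma IsRoot.eq {q : ℝ} (hq : 0 < q) {E : ℝ} {m : ℝ → ℂ} (hm : IsRoot q E m) {η : ℝ}
    (hη : 0 < η) : m η = mST q ((E : ℂ) + η * I) :=
  root_unique hq (hm η hη).2 (mST_quad hq _) (by rw [line_im]; exact hη) (hm η hη).1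
    (isRoot_mST hq E η hη).1

lemma hasDerivAt_log_norm {f : ℝ → ℂ} {f' : ℂ} {x : ℝ} (hf : HasDerivAt f f' x)
    (h0 : f x ≠ 0) : HasDerivAt (fun t => Real.log ‖f t‖) (f' / f x).re x := by
  have h1 := hf.norm_sq
  have hpos : ‖f x‖ ^ 2 ≠ 0 := by
    have := norm_pos_iff.2 h0
    positivity
  have h2 := (h1.log hpos).const_mul (1 / 2 : ℝ)
  have h3 : (fun t => 1 / 2 * Real.log (‖f t‖ ^ 2)) = fun t => Real.log ‖f t‖ := by
    funext t
    rw [Real.log_pow]
    push_cast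
    ring
  rw [h3] at h2
  refine h2.congr_deriv ?_
  rw [Complex.inner, Complex.div_re, Complex.mul_re, Complex.conj_re, Complex.conj_im,
    Complex.normSq_eq_norm_sq]
  field_simp
  ring

lemma differentiableAt_mST {q E η : ℝ} (hη : 0 < η) :
    ∃ f' : ℂ, HasDerivAt (fun t : ℝ => mST q ((E : ℂ) + t * I)) f' η := by
  have hline : HasDerivAt (fun t : ℝ => (E : ℂ) + t * I) I η := by
    have h1 : HasDerivAt (fun t : ℝ => (t : ℂ)) 1 η := by
      simpa using (hasDerivAt_id η).ofReal_comp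
    simpa using (h1.mul_const I).const_add (E : ℂ)
  have h1 : HasDerivAt (fun t : ℝ => (E : ℂ) + t * I - 2 * (Real.sqrt q : ℂ)) I η := by
    simpa using hline.sub_const (2 * (Real.sqrt q : ℂ))
  have h2 : HasDerivAt (fun t : ℝ => (E : ℂ) + t * I + 2 * (Real.sqrt q : ℂ)) I η := by
    simpa using hline.add_const (2 * (Real.sqrt q : ℂ))
  have s1 : (E : ℂ) + η * I - 2 * (Real.sqrt q : ℂ) ∈ Complex.slitPlane := by
    rw [Complex.mem_slitPlane_iff]
    right
    simp [hη.ne']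
  have s2 : (E : ℂ) + η * I + 2 * (Real.sqrt q : ℂ) ∈ Complex.slitPlane := by
    rw [Complex.mem_slitPlane_iff]
    right
    simp [hη.ne']
  have c1 : HasDerivAt (fun w : ℂ => w ^ (1 / 2 : ℂ))
      ((1 / 2 : ℂ) * ((E : ℂ) + η * I - 2 * (Real.sqrt q : ℂ)) ^ ((1 / 2 : ℂ) - 1) * 1)
      ((E : ℂ) + η * I - 2 * (Real.sqrt q : ℂ)) :=
    (hasDerivAt_id _).cpow_const s1
  have c2 : HasDerivAt (fun w : ℂ => w ^ (1 / 2 : ℂ))
      ((1 / 2 : ℂ) * ((E : ℂ) + η * I + 2 * (Real.sqrt q : ℂ)) ^ ((1 / 2 : ℂ) - 1) * 1)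
      ((E : ℂ) + η * I + 2 * (Real.sqrt q : ℂ)) :=
    (hasDerivAt_id _).cpow_const s2
  have k1 := c1.comp η h1
  have k2 := c2.comp η h2
  exact ⟨_, ((hline.neg.add (k1.mul k2)).div_const (2 * (q : ℂ)))⟩

lemma nondeg {q : ℝ} (hq : 0 < q) {z m : ℂ} (hz : 0 < z.im) (hm : 0 < m.im)
    (h : (q : ℂ) * m ^ 2 + z * m + 1 = 0) :
    m ≠ 0 ∧ 1 - m ^ 2 ≠ 0 ∧ 1 - (q : ℂ) * m ^ 2 ≠ 0 := by
  have hm0 : m ≠ 0 := by
    rintro rfl
    simp at hm
  refine ⟨hm0, ?_, ?_⟩
  · intro h1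
    have h2 : (m - 1) * (m + 1) = 0 := by linear_combination -h1
    rcases mul_eq_zero.1 h2 with h3 | h3
    · have := congrArg Complex.im h3
      simp at this
      linarith
    · have := congrArg Complex.im h3
      simp at this
      linarith
  · intro h1
    have h2 := normSq_lt h hz hm
    have h3 : (q : ℂ) * m ^ 2 = 1 := by linear_combination -h1
    have h4 := congrArg norm h3
    rw [norm_mul, norm_pow, norm_one, ← Complex.normSq_eq_norm_sq, Complex.norm_real,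
      Real.norm_eq_abs] at h4
    rw [abs_of_pos hq] at h4
    linarith

/-- derivative of the root along the vertical line -/
lemma IsRoot.hasDerivAt {q E : ℝ} (hq : 0 < q) {m : ℝ → ℂ} (hm : IsRoot q E m) {η : ℝ}
    (hη : 0 < η) : HasDerivAt m (I * m η ^ 2 / (1 - (q : ℂ) * m η ^ 2)) η := by
  obtain ⟨f', hf'⟩ := differentiableAt_mST (q := q) (E := E) hη
  have hev : m =ᶠ[𝓝 η] fun t => mST q ((E : ℂ) + t * I) := by
    filter_upwards [lt_mem_nhds hη] with t ht
    exact hm.eq hq ht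
  have hd : HasDerivAt m f' η := hf'.congr_of_eventuallyEq hev
  have hline : HasDerivAt (fun t : ℝ => (E : ℂ) + t * I) I η := by
    have h1 : HasDerivAt (fun t : ℝ => (t : ℂ)) 1 η := by
      simpa using (hasDerivAt_id η).ofReal_comp
    simpa using (h1.mul_const I).const_add (E : ℂ)
  have hq1 : HasDerivAt (fun t : ℝ => (q : ℂ) * m t ^ 2 + ((E : ℂ) + t * I) * m t + 1)
      ((q : ℂ) * (2 * m η * f') + (I * m η + ((E : ℂ) + η * I) * f')) η := by
    have h1 : HasDerivAt (fun t : ℝ => (q : ℂ) * m t ^ 2) ((q : ℂ) * (2 * m η * f')) η := by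
      simpa using (hd.pow 2).const_mul (q : ℂ)
    have h2 : HasDerivAt (fun t : ℝ => ((E : ℂ) + t * I) * m t)
      (I * m η + ((E : ℂ) + η * I) * f') η := hline.mul hd
    exact (h1.add h2).add_const (1 : ℂ)
  have hq2 : HasDerivAt (fun t : ℝ => (q : ℂ) * m t ^ 2 + ((E : ℂ) + t * I) * m t + 1) 0 η := by
    refine (hasDerivAt_const η (0 : ℂ)).congr_of_eventuallyEq ?_
    filter_upwards [lt_mem_nhds hη] with t ht
    exact (hm t ht).2
  have heq := hq1.unique hq2
  have hzim : 0 < ((E : ℂ) + η * I).im := by rw [line_im]; exact hη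
  obtain ⟨n1, n2, n3⟩ := nondeg hq hzim (hm η hη).1 (hm η hη).2
  have hval : f' = I * m η ^ 2 / (1 - (q : ℂ) * m η ^ 2) := by
    rw [eq_div_iff n3]
    have hquad := (hm η hη).2
    linear_combination (-m η) * heq + f' * hquad
  rw [← hval]
  exact hd

/-- derivative of the logarithmic potential along the vertical line is `Im m_d` -/
lemma IsRoot.hasDerivAt_UU {q E : ℝ} (hq : 0 < q) {m : ℝ → ℂ} (hm : IsRoot q E m) {η : ℝ}
    (hη : 0 < η) : HasDerivAt (fun t => UU q (m t)) (m η / (1 - m η ^ 2)).im η := by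
  have hd := hm.hasDerivAt hq hη
  have hzim : 0 < ((E : ℂ) + η * I).im := by rw [line_im]; exact hη
  obtain ⟨n1, n2, n3⟩ := nondeg hq hzim (hm η hη).1 (hm η hη).2
  have h1 : HasDerivAt (fun t => 1 - m t ^ 2)
      (-(2 * m η * (I * m η ^ 2 / (1 - (q : ℂ) * m η ^ 2)))) η := by
    have := (hd.pow 2).const_sub (1 : ℂ)
    simpa using this
  have h2 := (hasDerivAt_log_norm h1 n2).const_mul (-((q - 1) / 2))
  have h3 := h2.sub (hasDerivAt_log_norm hd n1)
  refine h3.congr_deriv ?_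
  have key : ((-((q - 1) / 2) : ℝ) : ℂ) * (-(2 * m η * (I * m η ^ 2 / (1 - (q : ℂ) * m η ^ 2))) /
      (1 - m η ^ 2)) - (I * m η ^ 2 / (1 - (q : ℂ) * m η ^ 2)) / m η =
      -(I * (m η / (1 - m η ^ 2))) := by
    push_cast
    field_simp
    ring
  have key2 := congrArg Complex.re key
  rw [Complex.sub_re, Complex.re_ofReal_mul] at key2
  rw [key2]
  simp

end Vale.Agent.P156.H904
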