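import Mathlib

/-!
# The Stieltjes transform of the `(q+1)`-regular tree: the root `m` of `q m² + z m + 1 = 0`

Block D3 (P156).  Everything is stated for an arbitrary `m : ℂ` (or function) satisfying the
quadratic equation with positive imaginary part.
-/

open Complex Filter Topology

noncomputable section

namespace Vale.Agent.P156.H904

/-- the positive square root of a point of the upper half plane lies in the open quadrant -/
lemma cpow_half_pos {w : ℂ} (hw : 0 < w.im) :
    0 < (w ^ (1 / 2 : ℂ)).re ∧ 0 < (w ^ (1 / 2 : ℂ)).im := by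
  have hw0 : w ≠ 0 := by
    rintro rfl
    simp at hw
  have harg0 : 0 < w.arg := by
    rcases (Complex.arg_nonneg_iff.2 hw.le).lt_or_eq with h | h
    · exact h
    · exfalso
      have := (Complex.arg_eq_zero_iff.1 h.symm).2
      linarith
  have hargpi : w.arg < Real.pi := by
    refine lt_of_le_of_ne (Complex.arg_le_pi w) ?_
    intro h
    have := (Complex.arg_eq_pi_iff.1 h).2
    linarith
  rw [Complex.cpow_def_of_ne_zero hw0]
  have him : (Complex.log w * (1 / 2 : ℂ)).im = w.arg / 2 := by
    have : Complex.log w * (1 / 2 : ℂ) = Complex.log w / 2 := by ring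
    rw [this]
    have h2 : (Complex.log w / 2).im = (Complex.log w).im / 2 := by
      rw [show (2 : ℂ) = ((2 : ℝ) : ℂ) by norm_num, Complex.div_ofReal_im]
    rw [h2, Complex.log_im]
  constructor
  · rw [Complex.exp_re, him]
    have : 0 < Real.cos (w.arg / 2) :=
      Real.cos_pos_of_mem_Ioo ⟨by linarith [Real.pi_pos], by linarith⟩
    positivity
  · rw [Complex.exp_im, him]
    have : 0 < Real.sin (w.arg / 2) :=
      Real.sin_pos_of_pos_of_lt_pi (by linarith) (by linarith [Real.pi_pos])
    positivity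

lemma cpow_half_sq (w : ℂ) : (w ^ (1 / 2 : ℂ)) ^ 2 = w := by
  have := Complex.cpow_nat_inv_pow w (n := 2) (by norm_num)
  simp

/-- the explicit root of `q m² + z m + 1 = 0` in the upper half plane -/
def mST (q : ℝ) (z : ℂ) : ℂ :=
  (-z + (z - 2 * (Real.sqrt q : ℂ)) ^ (1 / 2 : ℂ) * (z + 2 * (Real.sqrt q : ℂ)) ^ (1 / 2 : ℂ)) /
    (2 * q)

lemma mST_quad {q : ℝ} (hq : 0 < q) (z : ℂ) : (q : ℂ) * mST q z ^ 2 + z * mST q z + 1 = 0 := by
  have hq' : (q : ℂ) ≠ 0 := by exact_mod_cast hq.ne'
  set a := (z - 2 * (Real.sqrt q : ℂ)) ^ (1 / 2 : ℂ) with ha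
  set b := (z + 2 * (Real.sqrt q : ℂ)) ^ (1 / 2 : ℂ) with hb
  have ha2 : a ^ 2 = z - 2 * (Real.sqrt q : ℂ) := cpow_half_sq _
  have hb2 : b ^ 2 = z + 2 * (Real.sqrt q : ℂ) := cpow_half_sq _
  have hs : ((Real.sqrt q : ℝ) : ℂ) ^ 2 = q := by
    rw [← Complex.ofReal_pow, Real.sq_sqrt hq.le]
  have hab : (a * b) ^ 2 = z ^ 2 - 4 * q := by
    rw [mul_pow, ha2, hb2, ← hs]
    ring
  have hm : mST q z = (-z + a * b) / (2 * q) := rfl
  rw [hm]
  field_simp
  linear_combination hab

lemma im_identity {q : ℝ} {z m : ℂ} (h : (q : ℂ) * m ^ 2 + z * m + 1 = 0) :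
    z.im * Complex.normSq m = m.im * (1 - q * Complex.normSq m) := by
  have hm : m ≠ 0 := by
    rintro rfl
    simp at h
  -- z = -(q m + 1/m), multiply by |m|²
  have h1 : z * (Complex.normSq m : ℂ) = -(q * m * (Complex.normSq m : ℂ)) - (starRingEnd ℂ) m := by
    rw [Complex.normSq_eq_conj_mul_self]
    have : z * m = -(q * m ^ 2) - 1 := by linear_combination h
    linear_combination (starRingEnd ℂ m) * this
  have h2 := congrArg Complex.im h1
  simp only [Complex.mul_im, Complex.ofReal_im, Complex.ofReal_re, Complex.sub_im, Complex.neg_im,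
    Complex.conj_im, Complex.mul_re, mul_zero, zero_mul, sub_zero, add_zero, zero_add] at h2
  linear_combination h2

lemma mST_im_pos {q : ℝ} (hq : 0 < q) {z : ℂ} (hz : 0 < z.im) : 0 < (mST q z).im := by
  have hq' : (q : ℂ) ≠ 0 := by exact_mod_cast hq.ne'
  have hquad := mST_quad hq z
  set m := mST q z with hm
  set a := (z - 2 * (Real.sqrt q : ℂ)) ^ (1 / 2 : ℂ) with ha
  set b := (z + 2 * (Real.sqrt q : ℂ)) ^ (1 / 2 : ℂ) with hb
  have ha2 : a ^ 2 = z - 2 * (Real.sqrt q : ℂ) := cpow_half_sq _
  have hb2 : b ^ 2 = z + 2 * (Real.sqrt q : ℂ) := cpow_half_sq _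
  have hapos : 0 < a.re ∧ 0 < a.im := cpow_half_pos (by simpa using hz)
  have hbpos : 0 < b.re ∧ 0 < b.im := cpow_half_pos (by simpa using hz)
  have hm0 : m ≠ 0 := by
    intro h
    rw [h] at hquad
    simp at hquad
  -- the other root
  set m' : ℂ := (-z - a * b) / (2 * q) with hm'
  have hs : ((Real.sqrt q : ℝ) : ℂ) ^ 2 = q := by
    rw [← Complex.ofReal_pow, Real.sq_sqrt hq.le]
  have hab : (a * b) ^ 2 = z ^ 2 - 4 * q := by
    rw [mul_pow, ha2, hb2, ← hs]
    ring
  have hprod : m * m' = 1 / q := by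
    have hmdef : m = (-z + a * b) / (2 * q) := rfl
    rw [hmdef, hm']
    field_simp
    linear_combination -hab
  -- |m|² < |m'|²
  have hlt : Complex.normSq m < Complex.normSq m' := by
    have hz2 : z = (a ^ 2 + b ^ 2) / 2 := by rw [ha2, hb2]; ring
    have h1 : Complex.normSq (-z + a * b) < Complex.normSq (-z - a * b) := by
      have e1 : -z + a * b = -((a - b) ^ 2 / 2) := by rw [hz2]; ring
      have e2 : -z - a * b = -((a + b) ^ 2 / 2) := by rw [hz2]; ring
      rw [e1, e2, Complex.normSq_neg, Complex.normSq_neg, Complex.normSq_div, Complex.normSq_div,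
        map_pow, map_pow]
      have h2 : Complex.normSq (a - b) < Complex.normSq (a + b) := by
        rw [Complex.normSq_apply, Complex.normSq_apply]
        simp only [Complex.sub_re, Complex.sub_im, Complex.add_re, Complex.add_im]
        nlinarith [mul_pos hapos.1 hbpos.1, mul_pos hapos.2 hbpos.2]
      have h3 : 0 ≤ Complex.normSq (a - b) := Complex.normSq_nonneg _
      have h4 : 0 < Complex.normSq (2 : ℂ) := Complex.normSq_pos.2 (by norm_num)
      gcongr
    have hmdef : m = (-z + a * b) / (2 * q) := rfl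
    rw [hmdef, hm', Complex.normSq_div, Complex.normSq_div]
    have h4 : 0 < Complex.normSq (2 * (q : ℂ)) := by
      rw [Complex.normSq_pos]
      exact mul_ne_zero two_ne_zero hq'
    gcongr
  have hprod2 : Complex.normSq m * Complex.normSq m' = (1 / q) ^ 2 := by
    rw [← map_mul, hprod]
    have : (1 / (q : ℂ)) = ((1 / q : ℝ) : ℂ) := by push_cast; ring
    rw [this, Complex.normSq_ofReal]
    ring
  have hnm : Complex.normSq m < 1 / q := by
    by_contra hcon
    push Not at hcon
    have h0 : 0 < 1 / q := by positivity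
    have : (1 / q) ^ 2 < Complex.normSq m * Complex.normSq m' := by
      calc (1 / q) ^ 2 = (1 / q) * (1 / q) := by ring
        _ ≤ Complex.normSq m * (1 / q) := by gcongr
        _ < Complex.normSq m * Complex.normSq m' := by
            have : 0 < Complex.normSq m := lt_of_lt_of_le h0 hcon
            have h6 : 1 / q < Complex.normSq m' := lt_of_le_of_lt hcon hlt
            gcongr
    linarith
  have hid := im_identity hquad
  have h1 : 0 < Complex.normSq m := Complex.normSq_pos.2 hm0
  have h2 : 0 < 1 - q * Complex.normSq m := by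
    have : q * Complex.normSq m < q * (1 / q) := by gcongr
    rw [mul_one_div_cancel hq.ne'] at this
    linarith
  have h3 : 0 < m.im * (1 - q * Complex.normSq m) := by
    rw [← hid]; positivity
  exact (mul_pos_iff_of_pos_right h2).1 h3

/-- modulus bound `|m|² < 1/q` -/
lemma normSq_lt {q : ℝ} {z m : ℂ} (h : (q : ℂ) * m ^ 2 + z * m + 1 = 0)
    (hz : 0 < z.im) (hm : 0 < m.im) : q * Complex.normSq m < 1 := by
  have hid := im_identity h
  have hm0 : m ≠ 0 := by
    rintro rfl
    simp at hm
  have h1 : 0 < Complex.normSq m := Complex.normSq_pos.2 hm0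
  have h3 : 0 < m.im * (1 - q * Complex.normSq m) := by
    rw [← hid]; positivity
  have := (mul_pos_iff_of_pos_left hm).1 h3
  linarith

/-- quantitative uniqueness / stability of the root -/
lemma root_diff {q : ℝ} {z z' m m' : ℂ} (h : (q : ℂ) * m ^ 2 + z * m + 1 = 0)
    (h' : (q : ℂ) * m' ^ 2 + z' * m' + 1 = 0) :
    (m - m') * (q * (m + m') + z') = -((z - z') * m) := by
  linear_combination h - h'

lemma root_unique {q : ℝ} (hq : 0 < q) {z m m' : ℂ} (h : (q : ℂ) * m ^ 2 + z * m + 1 = 0)
    (h' : (q : ℂ) * m' ^ 2 + z * m' + 1 = 0) (hz : 0 < z.im) (hm : 0 < m.im) (hm' : 0 < m'.im) :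
    m = m' := by
  have h1 := root_diff h h'
  rw [sub_self, zero_mul, neg_zero] at h1
  rcases mul_eq_zero.1 h1 with h2 | h2
  · exact sub_eq_zero.1 h2
  · exfalso
    have := congrArg Complex.im h2
    simp only [Complex.add_im, Complex.mul_im, Complex.ofReal_re, Complex.ofReal_im, zero_mul,
      Complex.zero_im, add_zero] at this
    have h3 : 0 < q * (m.im + m'.im) := by positivity
    linarith

end Vale.Agent.P156.H904
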